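import Vale.Agent.P273.H803.LegDir

/-!
# P273, LIM-G [C]: the harmonic potential in a neck, linear logarithmic coordinates with an offset

As `LegDir` (helper803), but the neck coordinates are `exp (lX - k)`, `exp (lY - k)` with a constant
`k ≥ 0` (helper732's `scl`: `k = log 16`): depth `fS lX + k`, length `fS (lX + lY) + 2 k`.

* `hasFDerivAt_ULk`: the derivative `ULkD`;
* `ULk_bound`: every direction;
* `ULk_bound_eul`: the Euler vector of the neck;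
* `ULk_bound_zero`: directions in which the mark does not move.
-/

open Set Filter Topology Metric Complex

noncomputable section

namespace Vale.Agent.P273.H132

open H803

variable {E P W : Type*} [NormedAddCommGroup E] [NormedSpace ℝ E]
  [NormedAddCommGroup P] [NormedSpace ℝ P] [NormedAddCommGroup W] [NormedSpace ℂ W]

theorem ex_lin_k (lX : E →L[ℝ] ℂ) (k : ℝ) (q : E) :
    ex (fun q => fS lX q + k) (fT lX) q = cexp (lX q - k) := by
  unfold ex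
  congr 1
  apply Complex.ext <;> simp
  ring

theorem ex_lin_sub_k (lX lY : E →L[ℝ] ℂ) (k : ℝ) (q : E) :
    ex (fun q => (fS (lX + lY) q + 2 * k) - (fS lX q + k))
      (fun q => fT (lX + lY) q - fT lX q) q = cexp (lY q - k) := by
  unfold ex
  congr 1
  apply Complex.ext <;> simp
  ring

/-- the potential in a neck, linear logarithmic coordinates, offset `k` -/
def ULk (h : P × ℂ → W →L[ℂ] ℂ) (ξ β k : ℝ) (p : E → P) (lX lY : E →L[ℝ] ℂ) (w : E → ℝ)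
    (c : E → W) : E → ℝ :=
  UN h ξ β p (fun q => fS lX q + k) (fT lX) (fun q => fS (lX + lY) q + 2 * k) (fT (lX + lY)) w c

omit [NormedAddCommGroup P] [NormedSpace ℝ P] in
theorem ULk_apply (h : P × ℂ → W →L[ℂ] ℂ) (ξ β k : ℝ) (p : E → P) (lX lY : E →L[ℝ] ℂ) (w : E → ℝ)
    (c : E → W) (q : E) :
    ULk h ξ β k p lX lY w c q =
      ξ + w q * (1 - 2 * (fS lX q + k) / (fS (lX + lY) q + 2 * k)) -
        β / Real.pi * (fT lX q - fT (lX + lY) q / 2) +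
        ((cexp (lX q - k) * h (p q, cexp (lX q - k)) (c q)).re -
          (cexp (lY q - k) * h (p q, cexp (lY q - k)) (c q)).re) := by
  unfold ULk UN Zf
  rw [ex_lin_k, ex_lin_sub_k]

/-- the derivative of `ULk` -/
def ULkD (h0 h1 : W →L[ℂ] ℂ) (hX' hY' : P × ℂ →L[ℝ] (W →L[ℂ] ℂ)) (β k : ℝ) (lX lY : E →L[ℝ] ℂ)
    (q : E) (w0 : ℝ) (c0 : W) (p' : E →L[ℝ] P) (w' : E →L[ℝ] ℝ) (c' : E →L[ℝ] W) : E →L[ℝ] ℝ :=
  UP β (fS lX q + k) (fS (lX + lY) q + 2 * k) w0 (fS lX) (fT lX) (fS (lX + lY)) (fT (lX + lY)) w' +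
    (Complex.reCLM.comp (ZfD h0 hX' (cexp (lX q - k)) c0 p' (cexp (lX q - k) • lX) c') -
      Complex.reCLM.comp (ZfD h1 hY' (cexp (lY q - k)) c0 p' (cexp (lY q - k) • lY) c'))

theorem ULkD_apply (h0 h1 : W →L[ℂ] ℂ) (hX' hY' : P × ℂ →L[ℝ] (W →L[ℂ] ℂ)) (β k : ℝ)
    (lX lY : E →L[ℝ] ℂ) (q : E) (w0 : ℝ) (c0 : W) (p' : E →L[ℝ] P) (w' : E →L[ℝ] ℝ)
    (c' : E →L[ℝ] W) (v : E) :
    ULkD h0 h1 hX' hY' β k lX lY q w0 c0 p' w' c' v =
      (1 - 2 * (fS lX q + k) / (fS (lX + lY) q + 2 * k)) * w' v -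
        2 * w0 / (fS (lX + lY) q + 2 * k) *
          (fS lX v - (fS lX q + k) / (fS (lX + lY) q + 2 * k) * fS (lX + lY) v) -
        β / Real.pi * (fT lX v - 1 / 2 * fT (lX + lY) v) +
      ((ZfD h0 hX' (cexp (lX q - k)) c0 p' (cexp (lX q - k) • lX) c' v).re -
        (ZfD h1 hY' (cexp (lY q - k)) c0 p' (cexp (lY q - k) • lY) c' v).re) := rfl

theorem hasFDerivAt_ULk {h : P × ℂ → W →L[ℂ] ℂ} {ξ β k : ℝ} {p : E → P} {lX lY : E →L[ℝ] ℂ}
    {w : E → ℝ} {c : E → W} {hX' hY' : P × ℂ →L[ℝ] (W →L[ℂ] ℂ)} {p' : E →L[ℝ] P}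
    {w' : E →L[ℝ] ℝ} {c' : E →L[ℝ] W} {q : E} (hy0 : fS (lX + lY) q + 2 * k ≠ 0)
    (hX : HasFDerivAt h hX' (p q, cexp (lX q - k)))
    (hY : HasFDerivAt h hY' (p q, cexp (lY q - k)))
    (hp : HasFDerivAt p p' q) (hw : HasFDerivAt w w' q) (hc : HasFDerivAt c c' q) :
    HasFDerivAt (ULk h ξ β k p lX lY w c)
      (ULkD (h (p q, cexp (lX q - k))) (h (p q, cexp (lY q - k))) hX' hY' β k lX lY q (w q) (c q)
        p' w' c') q := by
  have hX2 : HasFDerivAt h hX' (p q, ex (fun q => fS lX q + k) (fT lX) q) := by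
    rw [ex_lin_k]; exact hX
  have hY2 : HasFDerivAt h hY' (p q, ex (fun q => (fS (lX + lY) q + 2 * k) - (fS lX q + k))
      (fun q => fT (lX + lY) q - fT lX q) q) := by rw [ex_lin_sub_k]; exact hY
  have d1 : HasFDerivAt (fun q => fS lX q + k) (fS lX) q := (fS lX).hasFDerivAt.add_const k
  have d2 : HasFDerivAt (fun q => fS (lX + lY) q + 2 * k) (fS (lX + lY)) q :=
    (fS (lX + lY)).hasFDerivAt.add_const (2 * k)
  have e := hasFDerivAt_UN (ξ := ξ) (β := β) (S := fun q => fS lX q + k) (Θ := fT lX)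
    (y := fun q => fS (lX + lY) q + 2 * k) (α := fT (lX + lY)) hy0 hX2 hY2 hp d1
    (fT lX).hasFDerivAt d2 (fT (lX + lY)).hasFDerivAt hw hc
  rw [ex_lin_k, ex_lin_sub_k, lf_lin, lf_lin_sub] at e
  exact e

theorem norm_cexp_sub (lX : E →L[ℝ] ℂ) (k : ℝ) (q : E) :
    ‖cexp (lX q - k)‖ = Real.exp (-(fS lX q + k)) := by
  rw [Complex.norm_exp, fS_apply]
  congr 1
  simp
  ring

/-- **all directions**: the moving parts carry `‖X‖ ‖lX v‖`, `‖Y‖ ‖lY v‖` -/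
theorem ULk_bound {h0 h1 : W →L[ℂ] ℂ} {hX' hY' : P × ℂ →L[ℝ] (W →L[ℂ] ℂ)} {A β k w0 : ℝ}
    {lX lY : E →L[ℝ] ℂ} {q : E} {c0 : W} {p' : E →L[ℝ] P} {w' : E →L[ℝ] ℝ} {c' : E →L[ℝ] W}
    (a0 : ‖h0‖ ≤ A) (a1 : ‖h1‖ ≤ A) (aX : ‖hX'‖ ≤ A) (aY : ‖hY'‖ ≤ A)
    (hS0 : 0 ≤ fS lX q + k) (hS1 : 0 ≤ fS lY q + k) (hy0 : 0 < fS (lX + lY) q + 2 * k)
    {v : E} {L : ℝ} (hLX : ‖lX v‖ ≤ L) (hLY : ‖lY v‖ ≤ L) :
    |ULkD h0 h1 hX' hY' β k lX lY q w0 c0 p' w' c' v| ≤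
      |w' v| + (2 * |w0| / (fS (lX + lY) q + 2 * k) + |β| / Real.pi) * L +
        4 * A * ‖c0‖ * (Real.exp (-(fS lX q + k)) * ‖lX v‖ +
          Real.exp (-(fS lY q + k)) * ‖lY v‖) +
        A * (Real.exp (-(fS lX q + k)) + Real.exp (-(fS lY q + k))) *
          (‖c0‖ * ‖p' v‖ + ‖c' v‖) := by
  have hA : 0 ≤ A := (norm_nonneg _).trans a0
  have nX := norm_cexp_sub lX k q
  have nY := norm_cexp_sub lY k q
  have bX : ‖cexp (lX q - k)‖ ≤ 1 := by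
    rw [nX, Real.exp_le_one_iff]; linarith
  have bY : ‖cexp (lY q - k)‖ ≤ 1 := by
    rw [nY, Real.exp_le_one_iff]; linarith
  have hsum := fS_add lX lY q
  have hS1' : fS lX q + k ≤ fS (lX + lY) q + 2 * k := by linarith
  have e := UN_bound (β := β) (w0 := w0) (X0 := cexp (lX q - k)) (Y0 := cexp (lY q - k)) (c0 := c0)
    (p' := p') (S' := fS lX) (Θ' := fT lX) (y' := fS (lX + lY)) (α' := fT (lX + lY)) (w' := w')
    (c' := c') a0 a1 aX aY bX bY hS0 hS1' hy0 v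
  rw [lf_lin, lf_lin_sub] at e
  refine e.trans ?_
  rw [nX, nY]
  have d1 : fS (lX + lY) v = fS lX v + fS lY v := fS_add lX lY v
  have d2 : fT (lX + lY) v = fT lX v + fT lY v := fT_add lX lY v
  have m1 := abs_fS_le lX v
  have m2 := abs_fS_le lY v
  have m3 := abs_fT_le lX v
  have m4 := abs_fT_le lY v
  -- polyhedral part
  set S0 := fS lX q + k with hS0d
  set T0 := fS lY q + k with hT0d
  set y0 := fS (lX + lY) q + 2 * k with hy0d
  set t := S0 / y0 with ht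
  have t0 : 0 ≤ t := div_nonneg hS0 hy0.le
  have t1 : t ≤ 1 := (div_le_one hy0).2 hS1'
  have p1 : |fS lX v - t * fS (lX + lY) v| ≤ L := by
    rw [d1]
    have : fS lX v - t * (fS lX v + fS lY v) = (1 - t) * fS lX v - t * fS lY v := by ring
    rw [this]
    refine (abs_sub _ _).trans ?_
    rw [abs_mul, abs_mul, abs_of_nonneg t0, abs_of_nonneg (by linarith : (0 : ℝ) ≤ 1 - t)]
    have q1 : (1 - t) * |fS lX v| ≤ (1 - t) * L :=
      mul_le_mul_of_nonneg_left (m1.trans hLX) (by linarith)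
    have q2 : t * |fS lY v| ≤ t * L := mul_le_mul_of_nonneg_left (m2.trans hLY) t0
    linarith
  have p2 : |fT lX v - 1 / 2 * fT (lX + lY) v| ≤ L := by
    rw [d2]
    have : fT lX v - 1 / 2 * (fT lX v + fT lY v) = 1 / 2 * fT lX v - 1 / 2 * fT lY v := by ring
    rw [this]
    refine (abs_sub _ _).trans ?_
    rw [abs_mul, abs_mul, abs_of_pos (by norm_num : (0 : ℝ) < 1 / 2)]
    linarith
  have p3 : 2 * |w0| / y0 * |fS lX v - t * fS (lX + lY) v| ≤ 2 * |w0| / y0 * L :=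
    mul_le_mul_of_nonneg_left p1 (by positivity)
  have p4 : |β| / Real.pi * |fT lX v - 1 / 2 * fT (lX + lY) v| ≤ |β| / Real.pi * L :=
    mul_le_mul_of_nonneg_left p2 (by positivity)
  have p5 : A * Real.exp (-S0) * (‖c0‖ * (2 * (|fS lX v| + |fT lX v|) + ‖p' v‖) + ‖c' v‖) ≤
      A * Real.exp (-S0) * (‖c0‖ * (4 * ‖lX v‖ + ‖p' v‖) + ‖c' v‖) := by
    have z0 : 2 * (|fS lX v| + |fT lX v|) + ‖p' v‖ ≤ 4 * ‖lX v‖ + ‖p' v‖ := by linarith
    exact mul_le_mul_of_nonneg_left (add_le_add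
      (mul_le_mul_of_nonneg_left z0 (norm_nonneg _)) le_rfl) (by positivity)
  have p6 : A * Real.exp (-T0) * (‖c0‖ * (2 * (|fS (lX + lY) v - fS lX v| +
        |fT (lX + lY) v - fT lX v|) + ‖p' v‖) + ‖c' v‖) ≤
      A * Real.exp (-T0) * (‖c0‖ * (4 * ‖lY v‖ + ‖p' v‖) + ‖c' v‖) := by
    have z1 : fS (lX + lY) v - fS lX v = fS lY v := by rw [d1]; ring
    have z2 : fT (lX + lY) v - fT lX v = fT lY v := by rw [d2]; ring
    rw [z1, z2]
    have z0 : 2 * (|fS lY v| + |fT lY v|) + ‖p' v‖ ≤ 4 * ‖lY v‖ + ‖p' v‖ := by linarith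
    exact mul_le_mul_of_nonneg_left (add_le_add
      (mul_le_mul_of_nonneg_left z0 (norm_nonneg _)) le_rfl) (by positivity)
  have p7 : A * Real.exp (-S0) * (‖c0‖ * (4 * ‖lX v‖ + ‖p' v‖) + ‖c' v‖) +
      A * Real.exp (-T0) * (‖c0‖ * (4 * ‖lY v‖ + ‖p' v‖) + ‖c' v‖) =
      4 * A * ‖c0‖ * (Real.exp (-S0) * ‖lX v‖ + Real.exp (-T0) * ‖lY v‖) +
        A * (Real.exp (-S0) + Real.exp (-T0)) * (‖c0‖ * ‖p' v‖ + ‖c' v‖) := by ring
  linarith

theorem mul_exp_neg_add_le {s k : ℝ} (hk : 0 ≤ k) : s * Real.exp (-(s + k)) ≤ 1 := by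
  have h1 : s * Real.exp (-s) ≤ 1 := mul_exp_neg_le
  rcases le_or_gt s 0 with hs | hs
  · exact (mul_nonpos_of_nonpos_of_nonneg hs (Real.exp_pos _).le).trans zero_le_one
  · refine le_trans ?_ h1
    exact mul_le_mul_of_nonneg_left (Real.exp_le_exp.2 (by linarith)) hs.le

/-- **the Euler vector of the neck of the mark** (`lX v = - S / y`, `lY v = - (y - S) / y`, without
the offset) -/
theorem ULk_bound_eul {h0 h1 : W →L[ℂ] ℂ} {hX' hY' : P × ℂ →L[ℝ] (W →L[ℂ] ℂ)} {A β k w0 : ℝ}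
    {lX lY : E →L[ℝ] ℂ} {q : E} {c0 : W} {p' : E →L[ℝ] P} {w' : E →L[ℝ] ℝ} {c' : E →L[ℝ] W}
    (hk : 0 ≤ k)
    (a0 : ‖h0‖ ≤ A) (a1 : ‖h1‖ ≤ A) (aX : ‖hX'‖ ≤ A) (aY : ‖hY'‖ ≤ A)
    (hS0 : 0 ≤ fS lX q) (hS1 : 0 ≤ fS lY q) (hy0 : 0 < fS (lX + lY) q) {v : E}
    (hX : lX v = -((fS lX q / fS (lX + lY) q : ℝ) : ℂ))
    (hY : lY v = -((fS lY q / fS (lX + lY) q : ℝ) : ℂ)) :
    |ULkD h0 h1 hX' hY' β k lX lY q w0 c0 p' w' c' v| ≤
      |w' v| + 2 * |w0| * k / (fS (lX + lY) q * (fS (lX + lY) q + 2 * k)) +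
        4 * A * ‖c0‖ / fS (lX + lY) q + 2 * A * (‖c0‖ * ‖p' v‖ + ‖c' v‖) := by
  have hA : 0 ≤ A := (norm_nonneg _).trans a0
  have nX := norm_cexp_sub lX k q
  have nY := norm_cexp_sub lY k q
  have bX : ‖cexp (lX q - k)‖ ≤ 1 := by
    rw [nX, Real.exp_le_one_iff]; linarith
  have bY : ‖cexp (lY q - k)‖ ≤ 1 := by
    rw [nY, Real.exp_le_one_iff]; linarith
  have hsum := fS_add lX lY q
  have hS1' : fS lX q + k ≤ fS (lX + lY) q + 2 * k := by linarith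
  have hS0' : 0 ≤ fS lX q + k := by linarith
  have hyk : 0 < fS (lX + lY) q + 2 * k := by linarith
  have e := UN_bound (β := β) (w0 := w0) (X0 := cexp (lX q - k)) (Y0 := cexp (lY q - k)) (c0 := c0)
    (p' := p') (S' := fS lX) (Θ' := fT lX) (y' := fS (lX + lY)) (α' := fT (lX + lY)) (w' := w')
    (c' := c') a0 a1 aX aY bX bY hS0' hS1' hyk v
  rw [lf_lin, lf_lin_sub] at e
  refine e.trans ?_
  rw [nX, nY]
  set y0 := fS (lX + lY) q with hy0d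
  have sX : fS lX v = fS lX q / y0 := by
    rw [fS_apply, hX, Complex.neg_re, Complex.ofReal_re, neg_neg]
  have sY : fS lY v = fS lY q / y0 := by
    rw [fS_apply, hY, Complex.neg_re, Complex.ofReal_re, neg_neg]
  have tX : fT lX v = 0 := by
    rw [fT_apply, hX, Complex.neg_im, Complex.ofReal_im, neg_zero]
  have tY : fT lY v = 0 := by
    rw [fT_apply, hY, Complex.neg_im, Complex.ofReal_im, neg_zero]
  have d1 : fS (lX + lY) v = 1 := by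
    rw [fS_add, sX, sY, ← add_div, ← hsum, div_self hy0.ne']
  have d2 : fT (lX + lY) v = 0 := by rw [fT_add, tX, tY, add_zero]
  have z1 : fS lX v - (fS lX q + k) / (y0 + 2 * k) * fS (lX + lY) v =
      k * (2 * fS lX q - y0) / (y0 * (y0 + 2 * k)) := by
    rw [d1, sX]
    field_simp
    ring
  have z1' : |fS lX v - (fS lX q + k) / (y0 + 2 * k) * fS (lX + lY) v| ≤ k / (y0 + 2 * k) := by
    rw [z1, abs_div, abs_of_pos (by positivity : 0 < y0 * (y0 + 2 * k)), abs_mul, abs_of_nonneg hk]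
    rw [div_le_div_iff₀ (by positivity) hyk]
    have : |2 * fS lX q - y0| ≤ y0 := by
      rw [abs_le]
      constructor <;> linarith
    calc k * |2 * fS lX q - y0| * (y0 + 2 * k) ≤ k * y0 * (y0 + 2 * k) := by
          gcongr
      _ = k * (y0 * (y0 + 2 * k)) := by ring
  have z2 : fT lX v - 1 / 2 * fT (lX + lY) v = 0 := by rw [d2, tX]; ring
  have z3 : fS (lX + lY) v - fS lX v = fS lY q / y0 := by rw [fS_add, sY]; ring
  have z4 : fT (lX + lY) v - fT lX v = 0 := by rw [d2, tX]; ring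
  rw [z2, z3, z4, sX, tX, abs_zero, abs_of_nonneg (div_nonneg hS0 hy0.le),
    abs_of_nonneg (div_nonneg hS1 hy0.le)]
  rw [sX] at z1'
  have k1 : Real.exp (-(fS lX q + k)) * (fS lX q / y0) ≤ 1 / y0 := by
    have := mul_exp_neg_add_le (s := fS lX q) hk
    rw [mul_div_assoc', div_le_div_iff_of_pos_right hy0]
    linarith
  have k2 : Real.exp (-(fS lY q + k)) * (fS lY q / y0) ≤ 1 / y0 := by
    have := mul_exp_neg_add_le (s := fS lY q) hk
    rw [mul_div_assoc', div_le_div_iff_of_pos_right hy0]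
    linarith
  have k3 : Real.exp (-(fS lX q + k)) ≤ 1 := by rw [← nX]; exact bX
  have k4 : Real.exp (-(fS lY q + k)) ≤ 1 := by rw [← nY]; exact bY
  have r1 : A * Real.exp (-(fS lX q + k)) * (‖c0‖ * (2 * (fS lX q / y0 + 0) + ‖p' v‖) + ‖c' v‖) =
      2 * A * ‖c0‖ * (Real.exp (-(fS lX q + k)) * (fS lX q / y0)) +
        Real.exp (-(fS lX q + k)) * (A * (‖c0‖ * ‖p' v‖ + ‖c' v‖)) := by ring
  have r2 : A * Real.exp (-(fS lY q + k)) * (‖c0‖ * (2 * (fS lY q / y0 + 0) + ‖p' v‖) + ‖c' v‖) =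
      2 * A * ‖c0‖ * (Real.exp (-(fS lY q + k)) * (fS lY q / y0)) +
        Real.exp (-(fS lY q + k)) * (A * (‖c0‖ * ‖p' v‖ + ‖c' v‖)) := by ring
  rw [r1, r2]
  have s0 : 2 * |w0| / (y0 + 2 * k) * |fS lX q / y0 - (fS lX q + k) / (y0 + 2 * k) *
      fS (lX + lY) v| ≤ 2 * |w0| * k / (y0 * (y0 + 2 * k)) := by
    rw [← sX, z1, abs_div, abs_of_pos (by positivity : 0 < y0 * (y0 + 2 * k)), abs_mul,
      abs_of_nonneg hk, div_mul_div_comm, div_le_div_iff₀ (by positivity) (by positivity)]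
    have : |2 * fS lX q - y0| ≤ y0 := by
      rw [abs_le]
      constructor <;> linarith
    have h0 : |2 * fS lX q - y0| ≤ y0 + 2 * k := by linarith
    calc 2 * |w0| * (k * |2 * fS lX q - y0|) * (y0 * (y0 + 2 * k))
        ≤ 2 * |w0| * (k * (y0 + 2 * k)) * (y0 * (y0 + 2 * k)) := by gcongr
      _ = 2 * |w0| * k * ((y0 + 2 * k) * (y0 * (y0 + 2 * k))) := by ring
  have s1 : 2 * A * ‖c0‖ * (Real.exp (-(fS lX q + k)) * (fS lX q / y0)) ≤
      2 * A * ‖c0‖ * (1 / y0) := mul_le_mul_of_nonneg_left k1 (by positivity)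
  have s2 : 2 * A * ‖c0‖ * (Real.exp (-(fS lY q + k)) * (fS lY q / y0)) ≤
      2 * A * ‖c0‖ * (1 / y0) := mul_le_mul_of_nonneg_left k2 (by positivity)
  have s3 : Real.exp (-(fS lX q + k)) * (A * (‖c0‖ * ‖p' v‖ + ‖c' v‖)) ≤
      1 * (A * (‖c0‖ * ‖p' v‖ + ‖c' v‖)) := mul_le_mul_of_nonneg_right k3 (by positivity)
  have s4 : Real.exp (-(fS lY q + k)) * (A * (‖c0‖ * ‖p' v‖ + ‖c' v‖)) ≤
      1 * (A * (‖c0‖ * ‖p' v‖ + ‖c' v‖)) := mul_le_mul_of_nonneg_right k4 (by positivity)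
  have s5 : 4 * A * ‖c0‖ / y0 = 2 * A * ‖c0‖ * (1 / y0) + 2 * A * ‖c0‖ * (1 / y0) := by ring
  rw [s5, mul_zero]
  linarith

/-- directions in which the mark does not move -/
theorem ULk_bound_zero {h0 h1 : W →L[ℂ] ℂ} {hX' hY' : P × ℂ →L[ℝ] (W →L[ℂ] ℂ)} {A β k w0 : ℝ}
    {lX lY : E →L[ℝ] ℂ} {q : E} {c0 : W} {p' : E →L[ℝ] P} {w' : E →L[ℝ] ℝ} {c' : E →L[ℝ] W}
    (a0 : ‖h0‖ ≤ A) (a1 : ‖h1‖ ≤ A) (aX : ‖hX'‖ ≤ A) (aY : ‖hY'‖ ≤ A)
    (hS0 : 0 ≤ fS lX q + k) (hS1 : 0 ≤ fS lY q + k) (hy0 : 0 < fS (lX + lY) q + 2 * k) {v : E}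
    (hX : lX v = 0) (hY : lY v = 0) :
    |ULkD h0 h1 hX' hY' β k lX lY q w0 c0 p' w' c' v| ≤
      |w' v| + 2 * A * (‖c0‖ * ‖p' v‖ + ‖c' v‖) := by
  have hA : 0 ≤ A := (norm_nonneg _).trans a0
  have e := ULk_bound (β := β) (w0 := w0) (c0 := c0) (p' := p') (w' := w') (c' := c') a0 a1 aX aY
    hS0 hS1 hy0 (v := v) (L := 0) (by rw [hX, norm_zero]) (by rw [hY, norm_zero])
  rw [hX, hY, norm_zero, mul_zero, mul_zero, mul_zero, add_zero, add_zero, mul_zero,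
    add_zero] at e
  refine e.trans ?_
  have k3 : Real.exp (-(fS lX q + k)) ≤ 1 := Real.exp_le_one_iff.2 (by linarith)
  have k4 : Real.exp (-(fS lY q + k)) ≤ 1 := Real.exp_le_one_iff.2 (by linarith)
  have : A * (Real.exp (-(fS lX q + k)) + Real.exp (-(fS lY q + k))) *
      (‖c0‖ * ‖p' v‖ + ‖c' v‖) ≤ 2 * A * (‖c0‖ * ‖p' v‖ + ‖c' v‖) := by
    have h2 : A * (Real.exp (-(fS lX q + k)) + Real.exp (-(fS lY q + k))) ≤ 2 * A := by
      have := mul_le_mul_of_nonneg_left (add_le_add k3 k4) hA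
      linarith
    exact mul_le_mul_of_nonneg_right h2 (by positivity)
  linarith

end Vale.Agent.P273.H132
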