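import Vale.Agent.P273.H803.AsyL
import Vale.Agent.P273.H803.LegNeck
import Vale.Agent.P273.H545.CoreTheta

/-!
# P273, crew ASY0 (T3a): the explicit potentials in the log charts, `lgU`

* `bP p = (y + 2 log 16, α)`: the base of the region, lengths of the necks for `|X| ≤ 1`;
* `SX p = log 16 - re LX`, `TX p = im LX`: depth and angle of a mark of a neck;
* `UData`: matching data (722), regular part `h` on the necks, core primitives `K` (near, far);
* `UNp`: the potential at a mark of a neck; `UKp`: at a mark of the cores (side `P`);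
* `lgU U`: derivative of `UNp` on the necks, `± D UKp` on the cores, the branch of the core
  logarithms frozen at the core coordinate of the point.
-/

noncomputable section

namespace Vale.Agent.P273.H132

open Set Filter H681 H95 H732 H562 H803 H545 H722
open scoped Topology ContDiff

/-- the differences of the three pairs -/
def btF (ξ : Fin 6 → ℝ) : Fin 3 → ℝ := fun k => bt ξ k

/-- the second numbers of the three pairs -/
def xeF (ξ : Fin 6 → ℝ) : Fin 3 → ℝ := fun k => xe ξ k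

/-- matching data, regular parts on the necks, core primitives (`false` = near chart `x`,
`true` = far chart `w = 1/x`), with bounds on the compact zones; `K f z₀` is the branch of the
logarithms frozen at the base point `z₀`, used only near `z₀` -/
structure UData where
  D : KapData (Fin 3)
  h : Fin 3 → (Fin 3 → ℂ) × ℂ → (Fin 3 → ℂ) →L[ℂ] ℂ
  K : Bool → ℂ → (Fin 3 → ℂ) × ℂ → (Fin 3 → ℂ) →L[ℂ] ℂ
  ρ : ℝ
  A : ℝ
  ρ_pos : 0 < ρ
  h_diff : ∀ k ε X, ‖ε‖ < ρ → ‖X‖ ≤ 1 → DifferentiableAt ℝ (h k) (ε, X)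
  h_le : ∀ k ε X, ‖ε‖ < ρ → ‖X‖ ≤ 1 → ‖h k (ε, X)‖ ≤ A
  h'_le : ∀ k ε X, ‖ε‖ < ρ → ‖X‖ ≤ 1 → ‖fderiv ℝ (h k) (ε, X)‖ ≤ A
  K_diff : ∀ ε x, ‖ε‖ < ρ → ‖x‖ ≤ 11 → (∀ l, 1 / 64 ≤ ‖x - ctr l‖) →
    DifferentiableAt ℝ (K false x) (ε, x)
  K_le : ∀ ε x, ‖ε‖ < ρ → ‖x‖ ≤ 11 → (∀ l, 1 / 64 ≤ ‖x - ctr l‖) → ‖K false x (ε, x)‖ ≤ A
  K'_le : ∀ ε x, ‖ε‖ < ρ → ‖x‖ ≤ 11 → (∀ l, 1 / 64 ≤ ‖x - ctr l‖) →
    ‖fderiv ℝ (K false x) (ε, x)‖ ≤ A
  KI_diff : ∀ ε w, ‖ε‖ < ρ → ‖w‖ ≤ 11⁻¹ → DifferentiableAt ℝ (K true w) (ε, w)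
  KI_le : ∀ ε w, ‖ε‖ < ρ → ‖w‖ ≤ 11⁻¹ → ‖K true w (ε, w)‖ ≤ A
  KI'_le : ∀ ε w, ‖ε‖ < ρ → ‖w‖ ≤ 11⁻¹ → ‖fderiv ℝ (K true w) (ε, w)‖ ≤ A

section Defs

variable (R : H95.Region) (m : ∀ k, Fin (R.n k + 1))

/-- the lengths `y` -/
def yC : Co R m →L[ℝ] (Fin 3 → ℝ) :=
  (ContinuousLinearMap.fst ℝ (Fin 3 → ℝ) ((Fin 3 → ℝ) × (R.Cm → ℂ))).comp
    ((ContinuousLinearMap.snd ℝ ((W R m).Fr → ℝ) ((Fin 3 → ℝ) × (Fin 3 → ℝ) × (R.Cm → ℂ))).comp
      (ContinuousLinearMap.snd ℝ ((W R m).Fr → ℝ)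
        (((W R m).Fr → ℝ) × (Fin 3 → ℝ) × (Fin 3 → ℝ) × (R.Cm → ℂ))))

/-- the base angles `α` -/
def aC : Co R m →L[ℝ] (Fin 3 → ℝ) :=
  (ContinuousLinearMap.fst ℝ (Fin 3 → ℝ) (R.Cm → ℂ)).comp
    ((ContinuousLinearMap.snd ℝ (Fin 3 → ℝ) ((Fin 3 → ℝ) × (R.Cm → ℂ))).comp
      ((ContinuousLinearMap.snd ℝ ((W R m).Fr → ℝ) ((Fin 3 → ℝ) × (Fin 3 → ℝ) × (R.Cm → ℂ))).comp
        (ContinuousLinearMap.snd ℝ ((W R m).Fr → ℝ)
          (((W R m).Fr → ℝ) × (Fin 3 → ℝ) × (Fin 3 → ℝ) × (R.Cm → ℂ)))))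

@[simp] theorem yC_apply (p : Co R m) : yC R m p = p.2.2.1 := rfl

@[simp] theorem aC_apply (p : Co R m) : aC R m p = p.2.2.2.1 := rfl

/-- the core coordinate of a core mark -/
def sC (j : R.Cm) : Co R m →L[ℝ] ℂ :=
  (ContinuousLinearMap.proj (R := ℝ) (φ := fun _ : R.Cm => ℂ) j).comp (W R m).sc

@[simp] theorem sC_apply (j : R.Cm) (p : Co R m) : sC R m j p = p.2.2.2.2 j := rfl

/-- the base `(y + 2 log 16, α)` -/
def bP (p : Co R m) : Pa (Fin 3) := (fun k => p.2.2.1 k + 2 * Real.log 16, p.2.2.2.1)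

/-- its derivative -/
def bC : Co R m →L[ℝ] Pa (Fin 3) := (yC R m).prod (aC R m)

@[simp] theorem bC_apply (p : Co R m) : bC R m p = (p.2.2.1, p.2.2.2.1) := rfl

theorem bP_eq (p : Co R m) : bP R m p = bC R m p + ((fun _ => 2 * Real.log 16), 0) := by
  ext k
  · rfl
  · simp [bP]

theorem hasFDerivAt_bP (p : Co R m) : HasFDerivAt (bP R m) (bC R m) p := by
  have h : bP R m = fun p => bC R m p + ((fun _ => 2 * Real.log 16), 0) := by
    funext p
    exact bP_eq R m p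
  rw [h]
  exact (bC R m).hasFDerivAt.add_const _

variable {R}

/-- the depth of a mark of a neck, from `|X| = 1` -/
def SX {j : L} {k : Fin 3} (h : R.pl j = Sum.inl k) (p : Co R m) : ℝ :=
  Real.log 16 - (wreg.LX R.Cm R.n m k (rkF R h) p).re

/-- the angle of a mark of a neck -/
def TX {j : L} {k : Fin 3} (h : R.pl j = Sum.inl k) (p : Co R m) : ℝ :=
  (wreg.LX R.Cm R.n m k (rkF R h) p).im

/-- derivative of `SX` -/
def SC {j : L} {k : Fin 3} (h : R.pl j = Sum.inl k) : Co R m →L[ℝ] ℝ :=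
  -(Complex.reCLM.comp (wreg.LX R.Cm R.n m k (rkF R h)))

/-- derivative of `TX` -/
def TC {j : L} {k : Fin 3} (h : R.pl j = Sum.inl k) : Co R m →L[ℝ] ℝ :=
  Complex.imCLM.comp (wreg.LX R.Cm R.n m k (rkF R h))

@[simp] theorem SC_apply {j : L} {k : Fin 3} (h : R.pl j = Sum.inl k) (v : Co R m) :
    SC m h v = -(wreg.LX R.Cm R.n m k (rkF R h) v).re := rfl

@[simp] theorem TC_apply {j : L} {k : Fin 3} (h : R.pl j = Sum.inl k) (v : Co R m) :
    TC m h v = (wreg.LX R.Cm R.n m k (rkF R h) v).im := rfl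

theorem hasFDerivAt_SX {j : L} {k : Fin 3} (h : R.pl j = Sum.inl k) (p : Co R m) :
    HasFDerivAt (SX m h) (SC m h) p := by
  have h1 : SX m h = fun p => SC m h p + Real.log 16 := by
    funext p
    rw [SC_apply, SX]
    ring
  rw [h1]
  exact (SC m h).hasFDerivAt.add_const _

theorem hasFDerivAt_TX {j : L} {k : Fin 3} (h : R.pl j = Sum.inl k) (p : Co R m) :
    HasFDerivAt (TX m h) (TC m h) p := (TC m h).hasFDerivAt

/-- the potential at a mark of a neck -/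
def UNp (U : UData) (ξ : Fin 6 → ℝ) {j : L} {k : Fin 3} (h : R.pl j = Sum.inl k) (p : Co R m) : ℝ :=
  UN (U.h k) (xe ξ k) (bt ξ k) (fun q => ep (bP R m q)) (SX m h) (TX m h)
    (fun q => (bP R m q).1 k) (fun q => (bP R m q).2 k)
    (fun q => U.D.wf (xeF ξ) (btF ξ) (bP R m q) k)
    (fun q => cc U.D (xeF ξ) (btF ξ) (bP R m q)) p

/-- the potential at a mark of the core `P`, chart `f`, branch frozen at `z₀` -/
def UKp (U : UData) (ξ : Fin 6 → ℝ) (f : Bool) (z₀ : ℂ) (j : R.Cm) (p : Co R m) : ℝ :=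
  UK U.D (U.K f z₀) (xeF ξ) (btF ξ) (bP R m) (fun q => q.2.2.2.2 j) p

end Defs

/-- **the explicit family**: derivative of the explicit potentials (on the cores with the branch
frozen at the core coordinate of the point) -/
def lgU (U : UData) : LegF := fun R m S j ξ p =>
  match h : R.pl j with
  | Sum.inl _ => fderiv ℝ (UNp m U ξ h) p
  | Sum.inr s => (if s then -1 else 1 : ℝ) •
      fderiv ℝ (UKp m U ξ (S j) (p.2.2.2.2 ⟨j, by simp [h]⟩) ⟨j, by simp [h]⟩) p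

theorem lgU_neck (U : UData) (R : H95.Region) (m : ∀ k, Fin (R.n k + 1)) (S : L → Bool) {j : L}
    {k : Fin 3} (h : R.pl j = Sum.inl k) (ξ : Fin 6 → ℝ) (p : Co R m) :
    lgU U R m S j ξ p = fderiv ℝ (UNp m U ξ h) p := by
  unfold lgU
  split
  · rename_i k' h'
    have e : k' = k := by
      rw [h] at h'
      exact (Sum.inl.inj h').symm
    subst e
    rfl
  · rename_i s h'
    rw [h] at h'
    cases h'

theorem lgU_core (U : UData) (R : H95.Region) (m : ∀ k, Fin (R.n k + 1)) (S : L → Bool) {j : L}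
    {s : Bool} (h : R.pl j = Sum.inr s) (ξ : Fin 6 → ℝ) (p : Co R m) :
    lgU U R m S j ξ p =
      (if s then -1 else 1 : ℝ) •
        fderiv ℝ (UKp m U ξ (S j) (p.2.2.2.2 ⟨j, by simp [h]⟩) ⟨j, by simp [h]⟩) p := by
  unfold lgU
  split
  · rename_i k' h'
    rw [h] at h'
    cases h'
  · rename_i s' h'
    have e : s' = s := by
      rw [h] at h'
      exact (Sum.inr.inj h').symm
    subst e
    rfl

/-- the constants of 562 -/
def kap0 (U : UData) (k l : Fin 3) : ℝ :=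
  -(U.D.kap 0 (fun i => if i = l then Complex.I / Real.pi else 0) k).re

end Vale.Agent.P273.H132

end
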