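import Vale.Agent.P273.H545.BaseTheta

/-!
# P273, ASY0-LIM: limits of the base functions along the dilation

`bN y α c N = (N y + c, α)`.  For `N → ∞`:
* `Big` holds eventually, `rr → rr y`;
* `CC → lam0`, `wf k → lam0 - g0 k`;
* `N dCC/dy_l`, `N dwf/dy_l → rr l (lam0 - g0 l) / y l`;
* `dCC/dα_l → rr l β l / 2π`, `dwf_k/dα_l → (rr l - [k = l]) β l / 2π`;
* `N ‖dx/dy_l‖`, `‖dx/dα_l‖`, `N ‖dep‖ → 0`; for `β = 0` also `N dwf/dα_l`, `N ‖dx/dα_l‖ → 0`.
-/

open Set Filter Topology Metric Complex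

set_option linter.unusedSectionVars false

noncomputable section

namespace Vale.Agent.P273.H132

open H722 H722.KapData H545

variable {ι : Type} [Fintype ι] [Nonempty ι] [DecidableEq ι]

/-- the dilated base points -/
def bN (y α : ι → ℝ) (c N : ℝ) : Pa ι := (fun k => N * y k + c, α)

/-- data of the dilation: smallest length, positive -/
structure Dil (y : ι → ℝ) (y0 : ℝ) : Prop where
  pos : 0 < y0
  le : ∀ k, y0 ≤ y k
  ex : ∃ l, y l = y0

omit [DecidableEq ι] in
theorem exists_dil {y : ι → ℝ} (hy : ∀ k, 0 < y k) : ∃ y0, Dil y y0 := by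
  obtain ⟨l, -, hl⟩ := Finset.exists_min_image Finset.univ y Finset.univ_nonempty
  exact ⟨y l, hy l, fun k => hl k (Finset.mem_univ k), l, rfl⟩

/-- the limit of `CC` -/
def lam0 (D : KapData ι) (ξ β y α : ι → ℝ) : ℝ := ∑ k, rr y k * D.g0 ξ β (0, α) k

omit [Nonempty ι] [DecidableEq ι] in
theorem g0_bN (D : KapData ι) (ξ β y α : ι → ℝ) (c N : ℝ) :
    D.g0 ξ β (bN y α c N) = D.g0 ξ β (0, α) := rfl

variable {D : KapData ι} {y α : ι → ℝ} {y0 c : ℝ}

omit [Nonempty ι] [DecidableEq ι] in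
theorem tendsto_len (hd : Dil y y0) (l : ι) :
    Tendsto (fun N : ℝ => (bN y α c N).1 l) atTop atTop := by
  have h1 : 0 < y l := hd.pos.trans_le (hd.le l)
  exact tendsto_atTop_add_const_right atTop c (tendsto_id.atTop_mul_const h1)

omit [Nonempty ι] [DecidableEq ι] in
theorem tendsto_mu (hd : Dil y y0) : Tendsto (fun N : ℝ => N * y0 + c) atTop atTop :=
  tendsto_atTop_add_const_right atTop c (tendsto_id.atTop_mul_const hd.pos)

omit [Nonempty ι] [DecidableEq ι] in
theorem tendsto_ep (hd : Dil y y0) :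
    Tendsto (fun N : ℝ => ‖ep (bN y α c N)‖) atTop (𝓝 0) := by
  have h1 : ∀ᶠ N : ℝ in atTop, ‖ep (bN y α c N)‖ ≤ Real.exp (-(N * y0 + c)) := by
    filter_upwards [eventually_ge_atTop 0] with N hN
    refine norm_ep_le (m := N * y0 + c) fun k => ?_
    show N * y0 + c ≤ N * y k + c
    have := mul_le_mul_of_nonneg_left (hd.le k) hN
    linarith
  have h2 : Tendsto (fun N : ℝ => Real.exp (-(N * y0 + c))) atTop (𝓝 0) :=
    Real.tendsto_exp_neg_atTop_nhds_zero.comp (tendsto_mu hd)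
  exact squeeze_zero' (Eventually.of_forall fun N => norm_nonneg _) h1 h2

omit [Nonempty ι] [DecidableEq ι] in
theorem eventually_big_bN (D : KapData ι) (hd : Dil y y0) :
    ∀ᶠ N : ℝ in atTop, D.Big (N * y0 + c) (bN y α c N) := by
  filter_upwards [eventually_ge_atTop 0, (tendsto_mu (c := c) hd).eventually_gt_atTop (8 * D.κ),
    (tendsto_ep (α := α) (c := c) hd).eventually_lt_const D.ρ_pos] with N h0 h1 h2
  refine ⟨fun k => ?_, ?_, h1, h2⟩
  · show N * y0 + c ≤ N * y k + c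
    have := mul_le_mul_of_nonneg_left (hd.le k) h0
    linarith
  · obtain ⟨l, hl⟩ := hd.ex
    exact ⟨l, le_of_eq (by show N * y l + c = N * y0 + c; rw [hl])⟩

omit [Nonempty ι] [DecidableEq ι] in
theorem abs_al_le (y α : ι → ℝ) (c N : ℝ) (k : ι) : |(bN y α c N).2 k| ≤ ‖α‖ :=
  norm_le_pi_norm α k

omit [Nonempty ι] [DecidableEq ι] in
/-- `N / length → 1 / y` -/
theorem tendsto_div_len (hd : Dil y y0) (l : ι) :
    Tendsto (fun N : ℝ => N / (bN y α c N).1 l) atTop (𝓝 (1 / y l)) := by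
  have h1 : 0 < y l := hd.pos.trans_le (hd.le l)
  have h2 : Tendsto (fun N : ℝ => (y l + c / N)⁻¹) atTop (𝓝 (y l + 0)⁻¹) := by
    refine Tendsto.inv₀ (tendsto_const_nhds.add ?_) (by rw [add_zero]; exact h1.ne')
    exact tendsto_const_nhds.div_atTop tendsto_id
  rw [add_zero, ← one_div] at h2
  refine h2.congr' ?_
  filter_upwards [eventually_gt_atTop 0] with N hN
  show (y l + c / N)⁻¹ = N / (N * y l + c)
  have h3 : N * y l + c = N * (y l + c / N) := by
    field_simp
  rw [h3, ← div_div, div_self hN.ne', one_div]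

omit [DecidableEq ι] in
/-- the weights -/
theorem tendsto_rr (hd : Dil y y0) (l : ι) :
    Tendsto (fun N : ℝ => rr (bN y α c N).1 l) atTop (𝓝 (rr y l)) := by
  have hs : 0 < ∑ k, (y k)⁻¹ := sum_inv_pos fun k => hd.pos.trans_le (hd.le k)
  have h1 : ∀ k, Tendsto (fun N : ℝ => N * ((bN y α c N).1 k)⁻¹) atTop (𝓝 (y k)⁻¹) := by
    intro k
    have := tendsto_div_len (α := α) (c := c) hd k
    rw [one_div] at this
    exact this.congr fun N => div_eq_mul_inv _ _
  have h2 : Tendsto (fun N : ℝ => (N * ((bN y α c N).1 l)⁻¹) /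
      ∑ k, N * ((bN y α c N).1 k)⁻¹) atTop (𝓝 ((y l)⁻¹ / ∑ k, (y k)⁻¹)) :=
    (h1 l).div (tendsto_finsetSum _ fun k _ => h1 k) hs.ne'
  refine h2.congr' ?_
  filter_upwards [eventually_gt_atTop 0] with N hN
  rw [← Finset.mul_sum, mul_div_mul_left _ _ hN.ne']
  rfl

/-- squeeze: `|f - g| ≤ A / μ`, `g → a` -/
theorem tendsto_of_abs_sub_le {f g e : ℝ → ℝ} {a : ℝ} (h : ∀ᶠ N in atTop, |f N - g N| ≤ e N)
    (he : Tendsto e atTop (𝓝 0)) (hg : Tendsto g atTop (𝓝 a)) : Tendsto f atTop (𝓝 a) := by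
  have h1 : Tendsto (fun N => f N - g N) atTop (𝓝 0) :=
    squeeze_zero_norm' (h.mono fun N hN => by rw [Real.norm_eq_abs]; exact hN) he
  have h2 := h1.add hg
  rw [zero_add] at h2
  exact h2.congr fun N => by ring

omit [Nonempty ι] [DecidableEq ι] in
theorem tendsto_div_mu (hd : Dil y y0) (a : ℝ) :
    Tendsto (fun N : ℝ => a / (N * y0 + c)) atTop (𝓝 0) :=
  tendsto_const_nhds.div_atTop (tendsto_mu hd)

omit [Nonempty ι] [DecidableEq ι] in
theorem tendsto_div_len0 (hd : Dil y y0) (a : ℝ) (l : ι) :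
    Tendsto (fun N : ℝ => a / (bN y α c N).1 l) atTop (𝓝 0) :=
  tendsto_const_nhds.div_atTop (tendsto_len hd l)

omit [DecidableEq ι] in
/-- the value on the core -/
theorem tendsto_CC (D : KapData ι) (hd : Dil y y0) (ξ β : ι → ℝ) :
    Tendsto (fun N : ℝ => D.CC ξ β (bN y α c N)) atTop (𝓝 (lam0 D ξ β y α)) := by
  refine tendsto_of_abs_sub_le (g := fun N => ∑ k, rr (bN y α c N).1 k * D.g0 ξ β (0, α) k)
    (e := fun N => D.A0 ‖α‖ * sz ξ β / (N * y0 + c)) ?_ (tendsto_div_mu hd _) ?_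
  · filter_upwards [eventually_big_bN (α := α) (c := c) D hd] with N hN
    exact (bounds_v hN (abs_al_le y α c N) ξ β).2.2.2.1
  · exact tendsto_finsetSum _ fun k _ => (tendsto_rr hd k).mul_const _

omit [DecidableEq ι] in
/-- the weighted slopes -/
theorem tendsto_wf (D : KapData ι) (hd : Dil y y0) (ξ β : ι → ℝ) (k : ι) :
    Tendsto (fun N : ℝ => D.wf ξ β (bN y α c N) k) atTop
      (𝓝 (lam0 D ξ β y α - D.g0 ξ β (0, α) k)) := by
  refine tendsto_of_abs_sub_le
    (g := fun N => ∑ l, rr (bN y α c N).1 l * D.g0 ξ β (0, α) l - D.g0 ξ β (0, α) k)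
    (e := fun N => D.A0 ‖α‖ * sz ξ β / (N * y0 + c)) ?_ (tendsto_div_mu hd _) ?_
  · filter_upwards [eventually_big_bN (α := α) (c := c) D hd] with N hN
    exact (bounds_v hN (abs_al_le y α c N) ξ β).2.2.2.2 k
  · exact (tendsto_finsetSum _ fun k _ => (tendsto_rr hd k).mul_const _).sub_const _

omit [DecidableEq ι] in
/-- the coefficients are bounded -/
theorem eventually_norm_cc_le (D : KapData ι) (hd : Dil y y0) (ξ β : ι → ℝ) :
    ∀ᶠ N : ℝ in atTop, ‖cc D ξ β (bN y α c N)‖ ≤ D.A0 ‖α‖ * sz ξ β := by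
  filter_upwards [eventually_big_bN (α := α) (c := c) D hd] with N hN
  obtain ⟨-, h1, -, h2⟩ := nums hN (abs_al_le y α c N) ξ β
  linarith

omit [DecidableEq ι] in
/-- for `β = 0` the coefficients tend to zero like `1 / N` -/
theorem norm_cc_zero_le (D : KapData ι) (hd : Dil y y0) (ξ : ι → ℝ) :
    ∀ᶠ N : ℝ in atTop, ‖cc D ξ 0 (bN y α c N)‖ ≤ D.A0 ‖α‖ * sz ξ 0 / (N * y0 + c) := by
  filter_upwards [eventually_big_bN (α := α) (c := c) D hd] with N hN
  have := norm_c_le hN (abs_al_le y α c N) ξ 0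
  rwa [norm_zero, add_zero] at this

/-! ### derivatives in `y l` -/

/-- multiplied by the length -/
theorem tendsto_wf_y (D : KapData ι) (hd : Dil y y0) (ξ β : ι → ℝ) (k l : ι) :
    Tendsto (fun N : ℝ => N * fderiv ℝ (fun q => D.wf ξ β q k) (bN y α c N) (ey l)) atTop
      (𝓝 (1 / y l * (rr y l * (lam0 D ξ β y α - D.g0 ξ β (0, α) l)))) := by
  have h1 : Tendsto (fun N : ℝ => (bN y α c N).1 l *
      fderiv ℝ (fun q => D.wf ξ β q k) (bN y α c N) (ey l)) atTop
      (𝓝 (rr y l * (lam0 D ξ β y α - D.g0 ξ β (0, α) l))) := by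
    refine tendsto_of_abs_sub_le
      (g := fun N => rr (bN y α c N).1 l * D.wf ξ β (bN y α c N) l)
      (e := fun N => D.A0 ‖α‖ * sz ξ β / (bN y α c N).1 l) ?_ (tendsto_div_len0 hd _ l) ?_
    · filter_upwards [eventually_big_bN (α := α) (c := c) D hd] with N hN
      exact (bounds_y hN (abs_al_le y α c N) ξ β l).2.2.2 k
    · exact (tendsto_rr hd l).mul (tendsto_wf D hd ξ β l)
  refine ((tendsto_div_len (α := α) (c := c) hd l).mul h1).congr' ?_
  filter_upwards [(tendsto_len (α := α) (c := c) hd l).eventually_gt_atTop 0] with N hN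
  field_simp

/-- the same for the core value -/
theorem tendsto_CC_y (D : KapData ι) (hd : Dil y y0) (ξ β : ι → ℝ) (l : ι) :
    Tendsto (fun N : ℝ => N * fderiv ℝ (D.CC ξ β) (bN y α c N) (ey l)) atTop
      (𝓝 (1 / y l * (rr y l * (lam0 D ξ β y α - D.g0 ξ β (0, α) l)))) := by
  have h1 : Tendsto (fun N : ℝ => (bN y α c N).1 l *
      fderiv ℝ (D.CC ξ β) (bN y α c N) (ey l)) atTop
      (𝓝 (rr y l * (lam0 D ξ β y α - D.g0 ξ β (0, α) l))) := by
    refine tendsto_of_abs_sub_le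
      (g := fun N => rr (bN y α c N).1 l * D.wf ξ β (bN y α c N) l)
      (e := fun N => D.A0 ‖α‖ * sz ξ β / (bN y α c N).1 l) ?_ (tendsto_div_len0 hd _ l) ?_
    · filter_upwards [eventually_big_bN (α := α) (c := c) D hd] with N hN
      exact (bounds_y hN (abs_al_le y α c N) ξ β l).2.2.1
    · exact (tendsto_rr hd l).mul (tendsto_wf D hd ξ β l)
  refine ((tendsto_div_len (α := α) (c := c) hd l).mul h1).congr' ?_
  filter_upwards [(tendsto_len (α := α) (c := c) hd l).eventually_gt_atTop 0] with N hN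
  field_simp

/-- the slopes -/
theorem tendsto_xx_y (D : KapData ι) (hd : Dil y y0) (ξ β : ι → ℝ) (l : ι) :
    Tendsto (fun N : ℝ => N * ‖fderiv ℝ (D.xx ξ β) (bN y α c N) (ey l)‖) atTop (𝓝 0) := by
  have h1 : Tendsto (fun N : ℝ => N / (bN y α c N).1 l *
      (4 * (D.A0 ‖α‖ * sz ξ β) / (bN y α c N).1 l)) atTop (𝓝 (1 / y l * 0)) :=
    (tendsto_div_len hd l).mul (tendsto_div_len0 hd _ l)
  rw [mul_zero] at h1
  refine squeeze_zero' ?_ ?_ h1
  · filter_upwards [eventually_ge_atTop 0] with N hN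
    positivity
  · filter_upwards [eventually_big_bN (α := α) (c := c) D hd, eventually_ge_atTop 0,
      (tendsto_len (α := α) (c := c) hd l).eventually_gt_atTop 0] with N hN h0 hl
    refine (mul_le_mul_of_nonneg_left (norm_xx_y hN (abs_al_le y α c N) ξ β l) h0).trans ?_
    refine le_of_eq ?_
    field_simp

/-- the slopes, direction `α l` -/
theorem tendsto_xx_a (D : KapData ι) (hd : Dil y y0) (ξ β : ι → ℝ) (l : ι) :
    Tendsto (fun N : ℝ => ‖fderiv ℝ (D.xx ξ β) (bN y α c N) (ea l)‖) atTop (𝓝 0) := by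
  refine squeeze_zero' (Eventually.of_forall fun N => norm_nonneg _) ?_
    (tendsto_div_mu (c := c) hd (2 * (D.A0 ‖α‖ * sz ξ β)))
  filter_upwards [eventually_big_bN (α := α) (c := c) D hd] with N hN
  exact norm_xx_a hN (abs_al_le y α c N) ξ β l

omit [Nonempty ι] [DecidableEq ι] in
/-- `N exp (- length) → 0` -/
theorem tendsto_N_exp (hd : Dil y y0) (a : ℝ) (l : ι) :
    Tendsto (fun N : ℝ => N * (a * Real.exp (-((bN y α c N).1 l)))) atTop (𝓝 0) := by
  have h1 : Tendsto (fun N : ℝ => (bN y α c N).1 l * Real.exp (-((bN y α c N).1 l))) atTop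
      (𝓝 0) := by
    have := (Real.tendsto_pow_mul_exp_neg_atTop_nhds_zero 1).comp
      (tendsto_len (α := α) (c := c) hd l)
    refine this.congr fun N => ?_
    simp
  have h2 := ((tendsto_div_len (α := α) (c := c) hd l).mul h1).const_mul a
  rw [mul_zero, mul_zero] at h2
  refine h2.congr' ?_
  filter_upwards [(tendsto_len (α := α) (c := c) hd l).eventually_gt_atTop 0] with N hN
  field_simp

/-- for `β = 0`: the slopes, direction `α l`, scale `N` -/
theorem tendsto_xx_a_zero (D : KapData ι) (hd : Dil y y0) (ξ : ι → ℝ) (l : ι) :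
    Tendsto (fun N : ℝ => N * ‖fderiv ℝ (D.xx ξ 0) (bN y α c N) (ea l)‖) atTop (𝓝 0) := by
  refine squeeze_zero' ?_ ?_ (tendsto_N_exp (α := α) (c := c) hd (D.A0 ‖α‖ * ‖ξ‖) l)
  · filter_upwards [eventually_ge_atTop 0] with N hN
    positivity
  · filter_upwards [eventually_big_bN (α := α) (c := c) D hd, eventually_ge_atTop 0] with N hN h0
    exact mul_le_mul_of_nonneg_left (norm_xx_a_alpha hN (abs_al_le y α c N) ξ l) h0

/-- for `β = 0`: the weighted slopes, direction `α l`, scale `N` -/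
theorem tendsto_wf_a_zero (D : KapData ι) (hd : Dil y y0) (ξ : ι → ℝ) (k l : ι) :
    Tendsto (fun N : ℝ => N * fderiv ℝ (fun q => D.wf ξ 0 q k) (bN y α c N) (ea l)) atTop
      (𝓝 0) := by
  refine squeeze_zero_norm' ?_ (tendsto_N_exp (α := α) (c := c) hd (D.A0 ‖α‖ * ‖ξ‖) l)
  filter_upwards [eventually_big_bN (α := α) (c := c) D hd, eventually_ge_atTop 0] with N hN h0
  rw [Real.norm_eq_abs, abs_mul, abs_of_nonneg h0]
  exact mul_le_mul_of_nonneg_left ((bounds_a_alpha hN (abs_al_le y α c N) ξ l).2 k) h0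

/-- the same for the core value -/
theorem tendsto_CC_a_zero (D : KapData ι) (hd : Dil y y0) (ξ : ι → ℝ) (l : ι) :
    Tendsto (fun N : ℝ => N * fderiv ℝ (D.CC ξ 0) (bN y α c N) (ea l)) atTop (𝓝 0) := by
  refine squeeze_zero_norm' ?_ (tendsto_N_exp (α := α) (c := c) hd (D.A0 ‖α‖ * ‖ξ‖) l)
  filter_upwards [eventually_big_bN (α := α) (c := c) D hd, eventually_ge_atTop 0] with N hN h0
  rw [Real.norm_eq_abs, abs_mul, abs_of_nonneg h0]
  exact mul_le_mul_of_nonneg_left (bounds_a_alpha hN (abs_al_le y α c N) ξ l).1 h0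

/-- direction `α l` -/
theorem tendsto_wf_a (D : KapData ι) (hd : Dil y y0) (ξ β : ι → ℝ) (k l : ι) :
    Tendsto (fun N : ℝ => fderiv ℝ (fun q => D.wf ξ β q k) (bN y α c N) (ea l)) atTop
      (𝓝 ((rr y l - if k = l then 1 else 0) * (β l / (2 * Real.pi)))) := by
  refine tendsto_of_abs_sub_le
    (g := fun N => (rr (bN y α c N).1 l - if k = l then 1 else 0) * (β l / (2 * Real.pi)))
    (e := fun N => D.A0 ‖α‖ * sz ξ β / (bN y α c N).1 l) ?_ (tendsto_div_len0 hd _ l) ?_
  · filter_upwards [eventually_big_bN (α := α) (c := c) D hd] with N hN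
    exact (bounds_a hN (abs_al_le y α c N) ξ β l).2.2.2 k
  · exact ((tendsto_rr hd l).sub_const _).mul_const _

/-- the same for the core value -/
theorem tendsto_CC_a (D : KapData ι) (hd : Dil y y0) (ξ β : ι → ℝ) (l : ι) :
    Tendsto (fun N : ℝ => fderiv ℝ (D.CC ξ β) (bN y α c N) (ea l)) atTop
      (𝓝 (rr y l * (β l / (2 * Real.pi)))) := by
  refine tendsto_of_abs_sub_le
    (g := fun N => rr (bN y α c N).1 l * (β l / (2 * Real.pi)))
    (e := fun N => D.A0 ‖α‖ * sz ξ β / (bN y α c N).1 l) ?_ (tendsto_div_len0 hd _ l) ?_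
  · filter_upwards [eventually_big_bN (α := α) (c := c) D hd] with N hN
    exact (bounds_a hN (abs_al_le y α c N) ξ β l).2.2.1
  · exact (tendsto_rr hd l).mul_const _

omit [Nonempty ι] in
/-- the node parameters, directions `y l`, `α l`, scale `N` -/
theorem tendsto_dep (hd : Dil y y0) (l : ι) :
    Tendsto (fun N : ℝ => N * ‖dep (bN y α c N) (ey l)‖) atTop (𝓝 0) ∧
      Tendsto (fun N : ℝ => N * ‖dep (bN y α c N) (ea l)‖) atTop (𝓝 0) := by
  have h := tendsto_N_exp (α := α) (c := c) hd 1 l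
  constructor
  · refine squeeze_zero' ?_ ?_ h
    · filter_upwards [eventually_ge_atTop 0] with N hN
      positivity
    · filter_upwards [eventually_ge_atTop 0] with N h0
      rw [one_mul]
      exact mul_le_mul_of_nonneg_left (norm_dep_ey _ l) h0
  · refine squeeze_zero' ?_ ?_ h
    · filter_upwards [eventually_ge_atTop 0] with N hN
      positivity
    · filter_upwards [eventually_ge_atTop 0] with N h0
      rw [one_mul]
      exact mul_le_mul_of_nonneg_left (norm_dep_ea _ l) h0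

end Vale.Agent.P273.H132
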