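import Vale.Agent.P273.H132.NeckRem
import Vale.Agent.P273.H132.LimBase
import Vale.Agent.P273.H422.GenAdm
import Vale.Agent.P273.H803.AsyQ

/-!
# P273, crew ASY0: limits of the legs of `lgU` at the marks of the necks

* `gg_kap0`, `lam_kap0`, `lamA_kap0`, `lamY_kap0`: the numbers of 562 are those of 722;
* `limN_lgU`: the field `limN`; `lim0N_lgU`: the field `lim0`, marks of the necks.
-/

set_option linter.unusedSectionVars false

noncomputable section

namespace Vale.Agent.P273.H132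

open Set Filter H681 H95 H732 H562 H803 H545 H722
open scoped Topology ContDiff

section Lam

variable (U : UData) (ξ : Fin 6 → ℝ) (y α : Fin 3 → ℝ)

theorem gg_kap0 (k : Fin 3) :
    gg (kap0 U) ξ α k = U.D.g0 (xeF ξ) (btF ξ) (0, α) k := by
  have h1 : ib (btF ξ) = ∑ l, (bt ξ l : ℂ) •
      (fun i => if i = l then Complex.I / Real.pi else 0 : Fin 3 → ℂ) := by
    funext i
    rw [Finset.sum_apply]
    simp only [Pi.smul_apply, smul_eq_mul, mul_ite, mul_zero, Finset.sum_ite_eq, Finset.mem_univ,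
      if_true, ib, btF]
    ring
  have h2 : RG (btF ξ) (U.D.kap 0) k = ∑ l, bt ξ l *
      (U.D.kap 0 (fun i => if i = l then Complex.I / Real.pi else 0) k).re := by
    rw [RG_apply, h1, map_sum, Finset.sum_apply, Complex.re_sum]
    refine Finset.sum_congr rfl fun l _ => ?_
    rw [map_smul, Pi.smul_apply, smul_eq_mul, Complex.re_ofReal_mul]
  unfold gg KapData.g0
  rw [h2, ← sub_eq_zero]
  have h3 : ∑ l, kap0 U k l * bt ξ l = -∑ l, bt ξ l *
      (U.D.kap 0 (fun i => if i = l then Complex.I / Real.pi else 0) k).re := by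
    rw [← Finset.sum_neg_distrib]
    refine Finset.sum_congr rfl fun l _ => ?_
    unfold kap0
    ring
  rw [h3]
  show xe ξ k + bt ξ k * α k / (2 * Real.pi) + -_ - (xe ξ k + bt ξ k * α k / (2 * Real.pi) - _) = 0
  ring

theorem rr_eq (l : Fin 3) : rr y l = 1 / y l / ∑ k, 1 / y k := by
  unfold rr
  simp only [one_div]

theorem lam_kap0 : lam (kap0 U) ξ y α = lam0 U.D (xeF ξ) (btF ξ) y α := by
  unfold lam lam0
  rw [Finset.sum_div]
  refine Finset.sum_congr rfl fun k _ => ?_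
  rw [gg_kap0, rr_eq]
  ring

theorem lamA_kap0 (l : Fin 3) : lamA ξ y l = rr y l * (btF ξ l / (2 * Real.pi)) := by
  unfold lamA btF
  rw [rr_eq]
  ring

theorem lamY_kap0 (l : Fin 3) : lamY (kap0 U) ξ y α l =
    1 / y l * (rr y l * (lam0 U.D (xeF ξ) (btF ξ) y α - U.D.g0 (xeF ξ) (btF ξ) (0, α) l)) := by
  unfold lamY
  rw [lam_kap0, gg_kap0, rr_eq]
  ring

end Lam

section Dila

variable {R : H95.Region} {m : ∀ k, Fin (R.n k + 1)} {B : Set (W R m).Fr} {p : Co R m}

/-- the constant of the shift -/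
abbrev c16 : ℝ := 2 * Real.log 16

theorem bP_dpt (B : Set (W R m).Fr) (p : Co R m) (N : ℝ) :
    bP R m ((W R m).dpt B N p) = bN p.2.2.1 p.2.2.2.1 c16 N := rfl

theorem ev_ok {S : L → Bool} (hS : FarOk R S) (hp : Gen R m S B p) (hy : ∀ k, 0 < p.2.2.1 k) :
    ∀ᶠ N : ℝ in atTop, (W R m).Inr ((W R m).dpt B N p) ∧
      ∀ k, 0 ≤ (W R m).ul ((W R m).dpt B N p) k := by
  filter_upwards [H422.gen_adm R m S hS B p hp hy 1] with N hN
  refine ⟨hN.1, fun k => (W R m).ul_nonneg hN.1 k ?_⟩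
  have := hN.2.1 k
  linarith

theorem tendsto_depth (hy : ∀ k, 0 < p.2.2.1 k) {j : L} {k : Fin 3} (h : R.pl j = Sum.inl k) :
    Tendsto (fun N : ℝ => SX m h ((W R m).dpt B N p) / (bP R m ((W R m).dpt B N p)).1 k) atTop
      (𝓝 (depl R m B p h / p.2.2.1 k)) := by
  obtain ⟨y0, hd⟩ := exists_dil hy
  have h1 := ((tendsto_div_len (α := p.2.2.2.1) (c := c16) hd k).mul_const
    (depl R m B p h)).add (tendsto_div_len0 (α := p.2.2.2.1) (c := c16) hd
    (Real.log 16 + ∑ g ∈ wreg.bef R.n k (rkF R h), H422.off R m B p g) k)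
  rw [add_zero, one_div_mul_eq_div] at h1
  refine h1.congr fun N => ?_
  rw [SX_eq_dep, H422.dep_dpt, bP_dpt]
  ring

theorem tendsto_dpsi (hp : (W R m).Pos B p) (hy : ∀ k, 0 < p.2.2.1 k) (d : BDir R m)
    (hd : d.ok R m B) :
    Tendsto (fun N : ℝ => N * ‖(W R m).dpsi ((W R m).dpt B N p)
      (d.vec R m B ((W R m).dpt B N p))‖) atTop (𝓝 0) := by
  have key : ∀ v : ℝ → Co R m, Tendsto (fun N : ℝ => (W R m).dpsi ((W R m).dpt B N p)
      (N ^ 1 • v N)) atTop (𝓝 0) → Tendsto (fun N : ℝ => N * ‖(W R m).dpsi ((W R m).dpt B N p)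
      (v N)‖) atTop (𝓝 0) := by
    intro v hv
    have h1 := hv.norm
    rw [norm_zero] at h1
    refine h1.congr' ?_
    filter_upwards [eventually_ge_atTop 0] with N hN
    rw [map_smul, norm_smul, pow_one, Real.norm_eq_abs, abs_of_nonneg hN]
  cases d with
  | u f => exact key _ ((W R m).tendsto_dpsi_vec_dead tendsto_id B hp (.u f) hd 1)
  | ph f => exact key _ ((W R m).tendsto_dpsi_vec_dead tendsto_id B hp (.ph f) hd 1)
  | al l => exact key _ ((W R m).tendsto_dpsi_vec_dead tendsto_id B hp (.al l) trivial 1)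
  | eul l => exact key _ ((W R m).tendsto_dpsi_eulB tendsto_id B hp l (hy l).ne' 1)

theorem tendsto_of_mul {f : ℝ → ℝ} (hf : ∀ N, 0 ≤ f N)
    (h : Tendsto (fun N : ℝ => N * f N) atTop (𝓝 0)) : Tendsto f atTop (𝓝 0) := by
  refine squeeze_zero' (Eventually.of_forall hf) ?_ h
  filter_upwards [eventually_ge_atTop 1] with N hN
  exact le_mul_of_one_le_left (hf N) hN

/-- **the limit of a leg**: the polyhedral part has a limit, the remainder disappears -/
theorem lim_core (U : UData) {S : L → Bool} (hS : FarOk R S) (hp : Gen R m S B p)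
    (hy : ∀ k, 0 < p.2.2.1 k) {j : L} {k : Fin 3} (h : R.pl j = Sum.inl k) (ξ : Fin 6 → ℝ)
    {s : ℝ → ℝ} {v : ℝ → Co R m} {a : ℝ} (hs : ∀ᶠ N : ℝ in atTop, 0 ≤ s N)
    (h1 : Tendsto (fun N : ℝ => s N * UPn m U ξ h ((W R m).dpt B N p) (v N)) atTop (𝓝 a))
    (h2 : Tendsto (fun N : ℝ => s N * ‖(W R m).dpsi ((W R m).dpt B N p) (v N)‖) atTop (𝓝 0))
    (h3 : Tendsto (fun N : ℝ => s N * ‖dep (bP R m ((W R m).dpt B N p)) (bC R m (v N))‖) atTop
      (𝓝 0))
    (h4 : Tendsto (fun N : ℝ => s N * ‖ccD U.D (xeF ξ) (btF ξ) (bP R m ((W R m).dpt B N p))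
      (bC R m (v N))‖) atTop (𝓝 0)) :
    Tendsto (fun N : ℝ => s N * lgU U R m S j ξ ((W R m).dpt B N p) (v N)) atTop (𝓝 a) := by
  obtain ⟨y0, hd⟩ := exists_dil hy
  set C0 := U.D.A0 ‖p.2.2.2.1‖ * KapData.sz (xeF ξ) (btF ξ)
  have hA := U.A_nonneg
  have he : Tendsto (fun N : ℝ => 2 * U.A * C0 * (4 * nG R) *
      (s N * ‖(W R m).dpsi ((W R m).dpt B N p) (v N)‖) +
      (2 * U.A * C0 * (s N * ‖dep (bP R m ((W R m).dpt B N p)) (bC R m (v N))‖) +
      2 * U.A * (s N * ‖ccD U.D (xeF ξ) (btF ξ) (bP R m ((W R m).dpt B N p))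
        (bC R m (v N))‖))) atTop (𝓝 0) := by
    have := (h2.const_mul (2 * U.A * C0 * (4 * nG R))).add ((h3.const_mul (2 * U.A * C0)).add
      (h4.const_mul (2 * U.A)))
    simpa using this
  refine tendsto_of_abs_sub_le ?_ he h1
  filter_upwards [hs, ev_ok hS hp hy, eventually_big_bN (α := p.2.2.2.1) (c := c16) U.D hd,
    (tendsto_ep (α := p.2.2.2.1) (c := c16) hd).eventually_lt_const U.ρ_pos,
    eventually_norm_cc_le (α := p.2.2.2.1) (c := c16) U.D hd (xeF ξ) (btF ξ)]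
    with N hsN hok hbig hρ hcc
  rw [← bP_dpt B p N] at hbig hρ hcc
  rw [lgU_neck U R m S h]
  have h5 := UNp_rem m U hbig hρ hok.1 hok.2 h ξ (v N)
  rw [← mul_sub, abs_mul, abs_of_nonneg hsN]
  refine (mul_le_mul_of_nonneg_left h5 hsN).trans ?_
  have n1 := norm_nonneg ((W R m).dpsi ((W R m).dpt B N p) (v N))
  have n2 := norm_nonneg (dep (bP R m ((W R m).dpt B N p)) (bC R m (v N)))
  have n3 := nG_nonneg R
  have e1 : 2 * U.A * ‖cc U.D (xeF ξ) (btF ξ) (bP R m ((W R m).dpt B N p))‖ *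
      (4 * nG R * ‖(W R m).dpsi ((W R m).dpt B N p) (v N)‖) ≤ 2 * U.A * C0 *
      (4 * nG R * ‖(W R m).dpsi ((W R m).dpt B N p) (v N)‖) :=
    mul_le_mul_of_nonneg_right (mul_le_mul_of_nonneg_left hcc (by positivity)) (by positivity)
  have e2 : ‖cc U.D (xeF ξ) (btF ξ) (bP R m ((W R m).dpt B N p))‖ *
      ‖dep (bP R m ((W R m).dpt B N p)) (bC R m (v N))‖ ≤ C0 *
      ‖dep (bP R m ((W R m).dpt B N p)) (bC R m (v N))‖ :=
    mul_le_mul_of_nonneg_right hcc n2
  have e3 := mul_le_mul_of_nonneg_left (add_le_add e1 (mul_le_mul_of_nonneg_left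
    (add_le_add e2 (le_refl (‖ccD U.D (xeF ξ) (btF ξ) (bP R m ((W R m).dpt B N p))
      (bC R m (v N))‖))) (by positivity : 0 ≤ 2 * U.A))) hsN
  refine e3.trans (le_of_eq ?_)
  ring

end Dila

section Dirs

variable {R : H95.Region} {m : ∀ k, Fin (R.n k + 1)} {B : Set (W R m).Fr} {p : Co R m}
  {j : L} {k : Fin 3}

theorem bC_u (f : (W R m).Fr) : bC R m ((W R m).vec (.u f)) = 0 := rfl

theorem bC_ph (f : (W R m).Fr) : bC R m ((W R m).vec (.ph f)) = 0 := rfl

theorem bC_al (l : Fin 3) : bC R m ((W R m).vec (.al l)) = ea l := rfl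

theorem bC_eulB (B : Set (W R m).Fr) (p : Co R m) (l : Fin 3) :
    bC R m (H562.eulB R m B p l) = ey l := rfl

theorem TC_u (h : R.pl j = Sum.inl k) (f : (W R m).Fr) :
    TC m h ((W R m).vec (.u f)) = 0 := by
  rw [TC_apply, wreg.LX, Reg.lS_vec_u]
  split_ifs <;> simp

theorem SC_ph (h : R.pl j = Sum.inl k) (f : (W R m).Fr) :
    SC m h ((W R m).vec (.ph f)) = 0 := by
  rw [SC_apply, wreg.LX, Reg.lS_vec_ph]
  split_ifs <;> simp

theorem SC_al (h : R.pl j = Sum.inl k) (l : Fin 3) :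
    SC m h ((W R m).vec (.al l)) = 0 := by
  rw [SC_apply, wreg.LX, Reg.lS_vec_al]
  split_ifs <;> simp

theorem LX_eulB (h : R.pl j = Sum.inl k) (p : Co R m) {l : Fin 3} (hy : p.2.2.1 l ≠ 0) :
    wreg.LX R.Cm R.n m k (rkF R h) (H562.eulB R m B p l) =
      -((if k = l then depl R m B p h / p.2.2.1 k else 0 : ℝ) : ℂ) := by
  unfold wreg.LX
  by_cases hkl : k = l
  · subst hkl
    rw [if_pos rfl]
    exact (W R m).lS_eulB B (wreg.bef_subset m k (rkF R h)) p hy
  · rw [if_neg hkl]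
    have h1 : Disjoint (wreg.bef R.n k (rkF R h)) ((W R m).neck l) := by
      rw [Finset.disjoint_left]
      intro g hg hg'
      have h2 := (Reg.mem_neck _).1 (wreg.bef_subset m k (rkF R h) hg)
      have h3 := (Reg.mem_neck _).1 hg'
      exact hkl (h2.symm.trans h3)
    rw [show H562.eulB R m B p l = (W R m).eulB B p l from rfl,
      (W R m).lS_eulB_of_disjoint B h1 p hy]
    simp

theorem SC_eulB (h : R.pl j = Sum.inl k) (p : Co R m) {l : Fin 3} (hy : p.2.2.1 l ≠ 0) :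
    SC m h (H562.eulB R m B p l) = if k = l then depl R m B p h / p.2.2.1 k else 0 := by
  rw [SC_apply, LX_eulB h p hy]
  simp

theorem TC_eulB (h : R.pl j = Sum.inl k) (p : Co R m) {l : Fin 3} (hy : p.2.2.1 l ≠ 0) :
    TC m h (H562.eulB R m B p l) = 0 := by
  rw [TC_apply, LX_eulB h p hy]
  simp

theorem eulB_dpt' (B : Set (W R m).Fr) {N : ℝ} (hN : N ≠ 0) (p : Co R m) (l : Fin 3) :
    H562.eulB R m B ((W R m).dpt B N p) l = H562.eulB R m B p l := (W R m).eulB_dpt B hN p l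

variable (U : UData) {S : L → Bool} (hS : FarOk R S) (hp : Gen R m S B p)
  (hy : ∀ k, 0 < p.2.2.1 k) (h : R.pl j = Sum.inl k) (ξ : Fin 6 → ℝ)

include hS hp hy

/-- direction `u f` -/
theorem lim_u {f : (W R m).Fr} (hf : f ∈ B) :
    Tendsto (fun N : ℝ => N * lgU U R m S j ξ ((W R m).dpt B N p) ((W R m).vec (.u f))) atTop
      (𝓝 (2 * (lam (kap0 U) ξ p.2.2.1 p.2.2.2.1 - gg (kap0 U) ξ p.2.2.2.1 k) / p.2.2.1 k *
        (wreg.LX R.Cm R.n m k (rkF R h) ((W R m).vec (.u f))).re)) := by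
  obtain ⟨y0, hd⟩ := exists_dil hy
  refine lim_core U hS hp hy h ξ (s := fun N => N) (v := fun _ => (W R m).vec (.u f))
    (eventually_ge_atTop 0) ?_ (tendsto_dpsi hp.1 hy (.u f) hf) ?_ ?_
  · have h1 := ((tendsto_wf (α := p.2.2.2.1) (c := c16) U.D hd (xeF ξ) (btF ξ) k).const_mul
      (-2 * SC m h ((W R m).vec (.u f)))).mul
      (tendsto_div_len (α := p.2.2.2.1) (c := c16) hd k)
    have e : -2 * SC m h ((W R m).vec (.u f)) * (lam0 U.D (xeF ξ) (btF ξ) p.2.2.1 p.2.2.2.1 -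
        U.D.g0 (xeF ξ) (btF ξ) (0, p.2.2.2.1) k) * (1 / p.2.2.1 k) =
        2 * (lam (kap0 U) ξ p.2.2.1 p.2.2.2.1 - gg (kap0 U) ξ p.2.2.2.1 k) / p.2.2.1 k *
        (wreg.LX R.Cm R.n m k (rkF R h) ((W R m).vec (.u f))).re := by
      rw [lam_kap0, gg_kap0, SC_apply]
      ring
    rw [e] at h1
    refine h1.congr fun N => ?_
    rw [UPn_apply, bC_u, TC_u, map_zero, bP_dpt]
    simp only [Prod.fst_zero, Prod.snd_zero, Pi.zero_apply, mul_zero, sub_zero, zero_sub]
    ring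
  · simp only [bC_u, map_zero, norm_zero, mul_zero]
    exact tendsto_const_nhds
  · simp only [bC_u, map_zero, norm_zero, mul_zero]
    exact tendsto_const_nhds

/-- direction `ph f` -/
theorem lim_ph {f : (W R m).Fr} (hf : f ∈ B) :
    Tendsto (fun N : ℝ => 1 * lgU U R m S j ξ ((W R m).dpt B N p) ((W R m).vec (.ph f))) atTop
      (𝓝 (-(bt ξ k / Real.pi) *
        (wreg.LX R.Cm R.n m k (rkF R h) ((W R m).vec (.ph f))).im)) := by
  refine lim_core U hS hp hy h ξ (s := fun _ => 1) (v := fun _ => (W R m).vec (.ph f))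
    (Eventually.of_forall fun _ => zero_le_one) ?_ ?_ ?_ ?_
  · have e : ∀ N : ℝ, 1 * UPn m U ξ h ((W R m).dpt B N p) ((W R m).vec (.ph f)) =
        -(bt ξ k / Real.pi) *
          (wreg.LX R.Cm R.n m k (rkF R h) ((W R m).vec (.ph f))).im := by
      intro N
      rw [UPn_apply, bC_ph, SC_ph, map_zero, TC_apply]
      simp only [Prod.fst_zero, Prod.snd_zero, Pi.zero_apply, mul_zero, sub_zero, zero_sub]
      simp only [btF]
      ring
    simp only [e]
    exact tendsto_const_nhds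
  · simp only [one_mul]
    exact tendsto_of_mul (fun N => norm_nonneg _) (tendsto_dpsi hp.1 hy (.ph f) hf)
  · simp only [bC_ph, map_zero, norm_zero, mul_zero]
    exact tendsto_const_nhds
  · simp only [bC_ph, map_zero, norm_zero, mul_zero]
    exact tendsto_const_nhds

/-- direction `al l` -/
theorem lim_al (l : Fin 3) :
    Tendsto (fun N : ℝ => 1 * lgU U R m S j ξ ((W R m).dpt B N p) ((W R m).vec (.al l))) atTop
      (𝓝 ((lamA ξ p.2.2.1 l - if l = k then bt ξ k / (2 * Real.pi) else 0) *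
        (1 - 2 * depl R m B p h / p.2.2.1 k) - bt ξ k / Real.pi *
        ((wreg.LX R.Cm R.n m k (rkF R h) ((W R m).vec (.al l))).im -
          if l = k then 1 / 2 else 0))) := by
  obtain ⟨y0, hd⟩ := exists_dil hy
  refine lim_core U hS hp hy h ξ (s := fun _ => 1) (v := fun _ => (W R m).vec (.al l))
    (Eventually.of_forall fun _ => zero_le_one) ?_ ?_ ?_ ?_
  · have h1 := (tendsto_depth (B := B) hy h).const_mul 2
    have h2 := ((tendsto_const_nhds (x := (1 : ℝ))).sub h1).mul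
      (tendsto_wf_a (α := p.2.2.2.1) (c := c16) U.D hd (xeF ξ) (btF ξ) k l)
    have h3 := h2.sub_const (btF ξ k / Real.pi * (TC m h ((W R m).vec (.al l)) -
      1 / 2 * if k = l then 1 else 0))
    have e : (1 - 2 * (depl R m B p h / p.2.2.1 k)) *
        ((rr p.2.2.1 l - if k = l then 1 else 0) * (btF ξ l / (2 * Real.pi))) -
        (btF ξ k / Real.pi * (TC m h ((W R m).vec (.al l)) - 1 / 2 * if k = l then 1 else 0)) =
        (lamA ξ p.2.2.1 l - if l = k then bt ξ k / (2 * Real.pi) else 0) *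
        (1 - 2 * depl R m B p h / p.2.2.1 k) - bt ξ k / Real.pi *
        ((wreg.LX R.Cm R.n m k (rkF R h) ((W R m).vec (.al l))).im -
          if l = k then 1 / 2 else 0) := by
      rw [lamA_kap0, TC_apply]
      by_cases hkl : k = l
      · subst hkl
        simp only [if_true, btF]
        ring
      · have hlk : ¬ l = k := fun h => hkl h.symm
        simp only [if_neg hkl, if_neg hlk, btF]
        ring
    rw [e] at h3
    refine h3.congr fun N => ?_
    rw [UPn_apply, bC_al, SC_al, ea_fst, ea_snd, bP_dpt]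
    ring
  · simp only [one_mul]
    exact tendsto_of_mul (fun N => norm_nonneg _) (tendsto_dpsi hp.1 hy (.al l) trivial)
  · simp only [one_mul, bC_al, bP_dpt]
    exact tendsto_of_mul (fun N => norm_nonneg _)
      (tendsto_dep (α := p.2.2.2.1) (c := c16) hd l).2
  · simp only [one_mul, bC_al, bP_dpt]
    exact squeeze_zero (fun N => norm_nonneg _) (fun N => norm_ccD_le _ _ _ _ _)
      (tendsto_xx_a (α := p.2.2.2.1) (c := c16) U.D hd (xeF ξ) (btF ξ) l)

/-- direction `eul l` -/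
theorem lim_eul (l : Fin 3) :
    Tendsto (fun N : ℝ => N * lgU U R m S j ξ ((W R m).dpt B N p)
      (H562.eulB R m B ((W R m).dpt B N p) l)) atTop
      (𝓝 (lamY (kap0 U) ξ p.2.2.1 p.2.2.2.1 l * (1 - 2 * depl R m B p h / p.2.2.1 k))) := by
  obtain ⟨y0, hd⟩ := exists_dil hy
  refine lim_core U hS hp hy h ξ (s := fun N => N)
    (v := fun N => H562.eulB R m B ((W R m).dpt B N p) l)
    (eventually_ge_atTop 0) ?_ (tendsto_dpsi hp.1 hy (.eul l) trivial) ?_ ?_
  · have h0 := tendsto_depth (B := B) hy h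
    have h1 := ((tendsto_const_nhds (x := (1 : ℝ))).sub (h0.const_mul 2)).mul
      (tendsto_wf_y (α := p.2.2.2.1) (c := c16) U.D hd (xeF ξ) (btF ξ) k l)
    have h2 : Tendsto (fun N : ℝ => (if k = l then depl R m B p h / p.2.2.1 k else 0) -
        SX m h ((W R m).dpt B N p) / (bP R m ((W R m).dpt B N p)).1 k * if k = l then 1 else 0)
        atTop (𝓝 0) := by
      by_cases hkl : k = l
      · simp only [if_pos hkl, mul_one]
        have := (tendsto_const_nhds (x := depl R m B p h / p.2.2.1 k)).sub h0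
        rwa [sub_self] at this
      · simp only [if_neg hkl, mul_zero, sub_zero]
        exact tendsto_const_nhds
    have h3 := ((tendsto_div_len (α := p.2.2.2.1) (c := c16) hd k).mul
      ((tendsto_wf (α := p.2.2.2.1) (c := c16) U.D hd (xeF ξ) (btF ξ) k).const_mul 2)).mul h2
    rw [mul_zero] at h3
    have h4 := h1.sub h3
    have e : (1 - 2 * (depl R m B p h / p.2.2.1 k)) * (1 / p.2.2.1 l * (rr p.2.2.1 l *
        (lam0 U.D (xeF ξ) (btF ξ) p.2.2.1 p.2.2.2.1 -
          U.D.g0 (xeF ξ) (btF ξ) (0, p.2.2.2.1) l))) - 0 =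
        lamY (kap0 U) ξ p.2.2.1 p.2.2.2.1 l * (1 - 2 * depl R m B p h / p.2.2.1 k) := by
      rw [lamY_kap0]
      ring
    rw [e] at h4
    refine h4.congr' ?_
    filter_upwards [eventually_ne_atTop 0] with N hN
    rw [UPn_apply, bC_eulB, eulB_dpt' B hN, SC_eulB h p (hy l).ne', TC_eulB h p (hy l).ne',
      ey_fst, ey_snd, bP_dpt]
    ring
  · simp only [bC_eulB, bP_dpt]
    exact (tendsto_dep (α := p.2.2.2.1) (c := c16) hd l).1
  · simp only [bC_eulB, bP_dpt]
    refine squeeze_zero' ?_ ?_ (tendsto_xx_y (α := p.2.2.2.1) (c := c16) U.D hd (xeF ξ)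
      (btF ξ) l)
    · filter_upwards [eventually_ge_atTop 0] with N hN
      positivity
    · filter_upwards [eventually_ge_atTop 0] with N hN
      exact mul_le_mul_of_nonneg_left (norm_ccD_le _ _ _ _ _) hN

include h

/-- classes constant on the pairs, direction `ph f`, scale `N` -/
theorem lim0_ph (hξ : ∀ k, bt ξ k = 0) {f : (W R m).Fr} (hf : f ∈ B) :
    Tendsto (fun N : ℝ => N * lgU U R m S j ξ ((W R m).dpt B N p) ((W R m).vec (.ph f))) atTop
      (𝓝 0) := by
  refine lim_core U hS hp hy h ξ (s := fun N => N) (v := fun _ => (W R m).vec (.ph f))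
    (eventually_ge_atTop 0) ?_ (tendsto_dpsi hp.1 hy (.ph f) hf) ?_ ?_
  · have e : ∀ N : ℝ, N * UPn m U ξ h ((W R m).dpt B N p) ((W R m).vec (.ph f)) = 0 := by
      intro N
      rw [UPn_apply, bC_ph, SC_ph, map_zero, TC_apply]
      simp only [Prod.fst_zero, Prod.snd_zero, Pi.zero_apply, mul_zero, sub_zero, zero_sub]
      simp only [btF, hξ]
      ring
    simp only [e]
    exact tendsto_const_nhds
  · simp only [bC_ph, map_zero, norm_zero, mul_zero]
    exact tendsto_const_nhds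
  · simp only [bC_ph, map_zero, norm_zero, mul_zero]
    exact tendsto_const_nhds

/-- classes constant on the pairs, direction `al l`, scale `N` -/
theorem lim0_al (hξ : ∀ k, bt ξ k = 0) (l : Fin 3) :
    Tendsto (fun N : ℝ => N * lgU U R m S j ξ ((W R m).dpt B N p) ((W R m).vec (.al l))) atTop
      (𝓝 0) := by
  obtain ⟨y0, hd⟩ := exists_dil hy
  have hβ : btF ξ = 0 := funext hξ
  refine lim_core U hS hp hy h ξ (s := fun N => N) (v := fun _ => (W R m).vec (.al l))
    (eventually_ge_atTop 0) ?_ (tendsto_dpsi hp.1 hy (.al l) trivial) ?_ ?_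
  · have h1 := (tendsto_depth (B := B) hy h).const_mul 2
    have h2 := ((tendsto_const_nhds (x := (1 : ℝ))).sub h1).mul
      (tendsto_wf_a_zero (α := p.2.2.2.1) (c := c16) U.D hd (xeF ξ) k l)
    rw [mul_zero] at h2
    refine h2.congr fun N => ?_
    rw [UPn_apply, bC_al, SC_al, ea_fst, hβ, bP_dpt]
    simp only [Pi.zero_apply]
    ring
  · simp only [bC_al, bP_dpt]
    exact (tendsto_dep (α := p.2.2.2.1) (c := c16) hd l).2
  · simp only [bC_al, bP_dpt, hβ]
    refine squeeze_zero' ?_ ?_ (tendsto_xx_a_zero (α := p.2.2.2.1) (c := c16) U.D hd (xeF ξ) l)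
    · filter_upwards [eventually_ge_atTop 0] with N hN
      positivity
    · filter_upwards [eventually_ge_atTop 0] with N hN
      exact mul_le_mul_of_nonneg_left (norm_ccD_le _ _ _ _ _) hN

end Dirs

/-- **the field `limN` of `AsyL (kap0 U) (lgU U)`** -/
theorem limN_lgU (U : UData) : ∀ R m S, FarOk R S → ∀ (B : Set (W R m).Fr) (p : Co R m),
    Gen R m S B p → (∀ k, 0 < p.2.2.1 k) → ∀ (j : L) (k : Fin 3) (h : R.pl j = Sum.inl k)
    (ξ : Fin 6 → ℝ), IsCl ξ → ∀ d : BDir R m, d.ok R m B →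
    Tendsto (fun N : ℝ => d.sca R m N * lgU U R m S j ξ ((W R m).dpt B N p)
      (d.vec R m B ((W R m).dpt B N p))) atTop
      (𝓝 (legN (kap0 U) R m ξ p.2.2.1 p.2.2.2.1 k (depl R m B p h)
        (wreg.LX R.Cm R.n m k (rkF R h)) d)) := by
  intro R m S hS B p hp hy j k h ξ _ d hd
  cases d with
  | u f => exact lim_u U hS hp hy h ξ hd
  | ph f => exact lim_ph U hS hp hy h ξ hd
  | al l => exact lim_al U hS hp hy h ξ l
  | eul l => exact lim_eul U hS hp hy h ξ l

/-- **the field `lim0`, marks of the necks** -/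
theorem lim0N_lgU (U : UData) : ∀ R m S, FarOk R S → ∀ (B : Set (W R m).Fr) (p : Co R m),
    Gen R m S B p → (∀ k, 0 < p.2.2.1 k) → ∀ (j : L), Neck R S j → ∀ (ξ : Fin 6 → ℝ), IsCl ξ →
    (∀ k, bt ξ k = 0) →
    (∀ f ∈ B, Tendsto (fun N : ℝ => N * lgU U R m S j ξ ((W R m).dpt B N p)
      ((W R m).vec (.ph f))) atTop (𝓝 0)) ∧
    ∀ l, Tendsto (fun N : ℝ => N * lgU U R m S j ξ ((W R m).dpt B N p)
      ((W R m).vec (.al l))) atTop (𝓝 0) := by
  intro R m S hS B p hp hy j hj ξ _ hξ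
  obtain ⟨k, h⟩ := hj
  exact ⟨fun f hf => lim0_ph U hS hp hy h ξ hξ hf, fun l => lim0_al U hS hp hy h ξ hξ l⟩

end Vale.Agent.P273.H132

end
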