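import Vale.Agent.P273.H132.NeckRem
import Vale.Agent.P273.H132.LimNeck
import Vale.Agent.P273.H863.DirTab
import Vale.Agent.P273.H680.CoreBd

/-!
# P273, crew ASY0: bounds of the legs of `lgU` at the marks of the necks

`neckb1, neckb2, neckb4, neckb5, neckb6`: the five fields of `AsyQ Neck κ (lgU U)`;
`asyNeck U : AsyQ Neck (kap0 U) (lgU U)`.
-/

set_option linter.unusedSectionVars false

noncomputable section

namespace Vale.Agent.P273.H132

open Set Filter H681 H95 H732 H562 H803 H545 H722 H722.KapData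
open scoped Topology ContDiff

/-- everything the estimates need -/
structure NAt (U : UData) {R : H95.Region} (m : ∀ k, Fin (R.n k + 1)) (p : Co R m) (μ : ℝ) :
    Prop where
  big : U.D.Big μ (bP R m p)
  ep : ‖ep (bP R m p)‖ < U.ρ
  mn : μ ≤ (1 + 2 * Real.log 16) * mn p.2.2.1
  al : ∀ k, |(bP R m p).2 k| ≤ 7
  inr : (W R m).Inr p
  ul : ∀ k, 0 ≤ (W R m).ul p k
  y1 : ∀ k, 1 ≤ p.2.2.1 k

theorem exists_nat (U : UData) : ∃ N₀ : ℝ, 1 ≤ N₀ ∧ ∀ (R : H95.Region)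
    (m : ∀ k, Fin (R.n k + 1)) (S : L → Bool) (p : Co R m), Adm R m S N₀ p →
    ∃ μ, NAt U m p μ := by
  obtain ⟨N₀, h1, H⟩ := H680.exists_big U.D U.ρ_pos
  refine ⟨N₀, h1, fun R m S p hp => ?_⟩
  obtain ⟨μ, a1, a2, a3⟩ := H R m p hp.2.1
  have hy : ∀ k, 1 ≤ p.2.2.1 k := fun k => h1.trans (hp.2.1 k)
  exact ⟨μ, a1, a2, a3, H680.abs_le_seven hp, hp.1,
    fun k => (W R m).ul_nonneg hp.1 k (by linarith [hy k]), hy⟩

section at_point

variable {U : UData} {R : H95.Region} {m : ∀ k, Fin (R.n k + 1)} {p : Co R m} {μ : ℝ}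
  {j : L} {k : Fin 3} (H : NAt U m p μ) (h : R.pl j = Sum.inl k) (ξ : Fin 6 → ℝ)

theorem len_pos (H : NAt U m p μ) (k : Fin 3) : p.2.2.1 k ≤ (bP R m p).1 k ∧
    (bP R m p).1 k ≤ (1 + 2 * Real.log 16) * p.2.2.1 k ∧ 0 < (bP R m p).1 k := by
  have h1 := H.y1 k
  have h2 := log16_nonneg
  have h3 : (bP R m p).1 k = p.2.2.1 k + 2 * Real.log 16 := rfl
  rw [h3]
  refine ⟨by linarith, by nlinarith, by linarith⟩

include H in
theorem lgU_eq (S : L → Bool) : lgU U R m S j ξ p = UNpD m U h ξ p := by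
  rw [lgU_neck U R m S h, fderiv_UNp m U H.big H.ep H.inr H.ul h ξ]

include H in
theorem norms (Θ0 Θ1 : ℝ) :
    (‖U.h k (ep (bP R m p), cX (SX m h p) Θ0)‖ ≤ U.A ∧
      ‖fderiv ℝ (U.h k) (ep (bP R m p), cX (SX m h p) Θ0)‖ ≤ U.A) ∧
    (‖U.h k (ep (bP R m p), cX ((bP R m p).1 k - SX m h p) Θ1)‖ ≤ U.A ∧
      ‖fderiv ℝ (U.h k) (ep (bP R m p), cX ((bP R m p).1 k - SX m h p) Θ1)‖ ≤ U.A) := by
  have b1 := norm_cX_SX_le m H.inr H.ul h Θ0
  have b2 := norm_cX_SY_le m H.inr H.ul h Θ1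
  exact ⟨⟨U.h_le k _ _ H.ep b1, U.h'_le k _ _ H.ep b1⟩,
    ⟨U.h_le k _ _ H.ep b2, U.h'_le k _ _ H.ep b2⟩⟩

include H in
theorem gap_le {v : Co R m} (hv : bC R m v = 0) : |UNpD m U h ξ p v| ≤
    (|btF ξ k| + U.D.A0 7 * sz (xeF ξ) (btF ξ) * (2 / (bP R m p).1 k + U.A *
      (Real.exp (-(SX m h p)) + Real.exp (-((bP R m p).1 k - SX m h p))))) *
      (|SC m h v| + |TC m h v|) := by
  obtain ⟨⟨a0, aX⟩, ⟨a1, aY⟩⟩ := norms H h (TX m h p) ((bP R m p).2 k - TX m h p)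
  exact UNK_gap H.big H.al a0 a1 aX aY (SX_nonneg m h H.inr H.ul) (SX_le m h H.inr H.ul)
    (xeF ξ) (btF ξ) hv

include H in
theorem gap0_le (hξ : ∀ k, bt ξ k = 0) {v : Co R m} (hv : bC R m v = 0) :
    |UNpD m U h ξ p v| ≤ (8 + 32 * U.A) * wa (xeF ξ) (bP R m p) * (|SC m h v| + |TC m h v|) := by
  obtain ⟨⟨a0, aX⟩, ⟨a1, aY⟩⟩ := norms H h (TX m h p) ((bP R m p).2 k - TX m h p)
  have hb : btF ξ = 0 := funext hξ
  unfold UNpD
  rw [hb]
  exact (UNK_gap_alpha H.big a0 a1 aX aY (SX_nonneg m h H.inr H.ul) (SX_le m h H.inr H.ul)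
    (xeF ξ) hv).1

/-- values on the direction `al l` -/
theorem al_vals (H : NAt U m p μ) (h : R.pl j = Sum.inl k) (l : Fin 3) :
    |TC m h ((W R m).vec (.al l)) - if k = l then 1 / 2 else 0| ≤ (if k = l then 1 / 2 else 0) ∧
    Real.exp (-(SX m h p)) * |TC m h ((W R m).vec (.al l))| +
      Real.exp (-((bP R m p).1 k - SX m h p)) *
        |(if k = l then 1 else 0) - TC m h ((W R m).vec (.al l))| ≤
      17 * (1 + 2 * Real.log 16) / (bP R m p).1 l ∧
    Real.exp (-(SX m h p)) * |TC m h ((W R m).vec (.al l))| +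
      Real.exp (-((bP R m p).1 k - SX m h p)) *
        |(if k = l then 1 else 0) - TC m h ((W R m).vec (.al l))| ≤ 1 := by
  have hL := log16_nonneg
  obtain ⟨l1, l2, l3⟩ := len_pos H l
  by_cases hkl : k = l
  · subst hkl
    simp only [if_true]
    have hul := H863.y_le_ul H.inr (fun k => by linarith [H.y1 k]) k
    have hexp : Real.exp (-(W R m).ul p k) ≤ 17 * (1 + 2 * Real.log 16) / (bP R m p).1 k := by
      rw [le_div_iff₀ l3]
      have e1 := Reg.mul_exp_neg_le_one (x := (W R m).ul p k)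
      have e0 := Real.exp_pos (-(W R m).ul p k)
      calc Real.exp (-(W R m).ul p k) * (bP R m p).1 k
          ≤ Real.exp (-(W R m).ul p k) * ((1 + 2 * Real.log 16) * (17 * (W R m).ul p k)) := by
            refine mul_le_mul_of_nonneg_left (l2.trans ?_) e0.le
            exact mul_le_mul_of_nonneg_left hul (by linarith)
        _ = 17 * (1 + 2 * Real.log 16) * ((W R m).ul p k * Real.exp (-(W R m).ul p k)) := by
            ring
        _ ≤ 17 * (1 + 2 * Real.log 16) * 1 :=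
            mul_le_mul_of_nonneg_left e1 (by positivity)
        _ = _ := mul_one _
    have hexp1 : Real.exp (-(W R m).ul p k) ≤ 1 := by
      rw [Real.exp_le_one_iff]
      linarith [H.ul k]
    have hx : TC m h ((W R m).vec (.al k)) =
      (wreg.LX R.Cm R.n m k (rkF R h) ((W R m).vec (.al k))).im := rfl
    rcases H863.al_split H.inr H.ul k (rkF R h) with ⟨h1, h2⟩ | ⟨h1, h2⟩
    · have ht : TC m h ((W R m).vec (.al k)) = 1 := by rw [hx, h1]; simp
      have he : Real.exp (-(SX m h p)) ≤ Real.exp (-(W R m).ul p k) := by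
        rw [Real.exp_le_exp, SX_eq_dep]
        linarith
      rw [ht]
      simp only [sub_self, abs_zero, mul_zero, add_zero, abs_one, mul_one]
      refine ⟨by norm_num [abs_of_pos], he.trans hexp, he.trans hexp1⟩
    · have ht : TC m h ((W R m).vec (.al k)) = 0 := by rw [hx, h1]; simp
      have he : Real.exp (-((bP R m p).1 k - SX m h p)) ≤ Real.exp (-(W R m).ul p k) := by
        rw [Real.exp_le_exp, len_sub_SX]
        linarith
      rw [ht]
      simp only [sub_zero, abs_zero, mul_zero, zero_add, abs_one, mul_one]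
      refine ⟨by norm_num [abs_of_pos], he.trans hexp, he.trans hexp1⟩
  · have ht : TC m h ((W R m).vec (.al l)) = 0 := by
      rw [TC_apply, show (W R m).vec (.al l) = (wreg R.n m).vec (C := R.Cm) (.al l) from rfl,
        H863.LX_al_ne k l (rkF R h) (fun h => hkl h.symm)]
      simp
    rw [ht, if_neg hkl, if_neg hkl, sub_zero, abs_zero, mul_zero, mul_zero, add_zero]
    exact ⟨le_rfl, by positivity, zero_le_one⟩

include H in
theorem al_le (l : Fin 3) : |UNpD m U h ξ p ((W R m).vec (.al l))| ≤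
    (2 + U.A * (2 + 17 * (1 + 2 * Real.log 16))) *
      (|btF ξ l| + U.D.A0 7 * sz (xeF ξ) (btF ξ) / (bP R m p).1 l) := by
  obtain ⟨⟨a0, aX⟩, ⟨a1, aY⟩⟩ := norms H h (TX m h p) ((bP R m p).2 k - TX m h p)
  have hL := log16_nonneg
  obtain ⟨t1, t2, -⟩ := al_vals H h l
  exact UNK_a H.big H.al a0 a1 aX aY (SX_nonneg m h H.inr H.ul) (SX_le m h H.inr H.ul)
    (xeF ξ) (btF ξ) (by positivity) (bC_al l) (SC_al h l) t1 t2

include H in
theorem al0_le (hξ : ∀ k, bt ξ k = 0) (l : Fin 3) :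
    |UNpD m U h ξ p ((W R m).vec (.al l))| ≤
    2 * (A2 U.D + 16 * U.A + 2 * U.A * A2 U.D) * wa (xeF ξ) (bP R m p) := by
  obtain ⟨⟨a0, aX⟩, ⟨a1, aY⟩⟩ := norms H h (TX m h p) ((bP R m p).2 k - TX m h p)
  have hA := U.A_nonneg
  have hA2 := one_le_A2 U.D
  have hW := wa_nonneg H.big (xeF ξ)
  obtain ⟨-, -, t3⟩ := al_vals H h l
  have hb : btF ξ = 0 := funext hξ
  have h1 := UNK_a_alpha (Θ0 := TX m h p) (Θ' := TC m h) H.big a0 a1 aX aY
    (SX_nonneg m h H.inr H.ul) (SX_le m h H.inr H.ul) (xeF ξ) (bC_al l) (SC_al h l)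
  unfold UNpD
  rw [hb]
  refine h1.trans ?_
  have he : Real.exp (-((bP R m p).1 l)) ≤ 1 := by
    rw [Real.exp_le_one_iff]
    linarith [(len_pos H l).2.2]
  calc _ ≤ (A2 U.D + 16 * U.A + 2 * U.A * A2 U.D) * wa (xeF ξ) (bP R m p) * (1 + 1) :=
        mul_le_mul_of_nonneg_left (add_le_add he t3) (by positivity)
    _ = _ := by ring

/-- values on the Euler vectors -/
theorem eul_vals (H : NAt U m p μ) (h : R.pl j = Sum.inl k) (l : Fin 3) :
    TC m h ((W R m).eul p l) = 0 ∧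
    |SC m h ((W R m).eul p l) - if k = l then SX m h p / (bP R m p).1 k else 0| ≤
      if k = l then 2 * Real.log 16 / (bP R m p).1 k else 0 := by
  have hL := log16_nonneg
  obtain ⟨l1, l2, l3⟩ := len_pos H k
  have hy := H.y1 k
  by_cases hkl : k = l
  · subst hkl
    have hx := H863.LX_eul (C := R.Cm) (m := m) p k (rkF R h) (by linarith)
    have hd0 := wreg.dep_nonneg m H.inr H.ul k (rkF R h)
    have hd1 := wreg.dep_le m H.inr H.ul k (rkF R h)
    refine ⟨?_, ?_⟩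
    · rw [TC_apply, show (W R m).eul p k = (wreg R.n m).eul p k from rfl, hx]
      simp
    · rw [SC_apply, show (W R m).eul p k = (wreg R.n m).eul p k from rfl, hx, if_pos rfl,
        if_pos rfl, SX_eq_dep]
      set d := wreg.dep m p k (rkF R h)
      have h3 : (bP R m p).1 k = p.2.2.1 k + 2 * Real.log 16 := rfl
      rw [h3] at l3 ⊢
      set y := p.2.2.1 k
      have e1 : -(-((d / y : ℝ) : ℂ)).re - (Real.log 16 + d) / (y + 2 * Real.log 16) =
          Real.log 16 * (2 * d - y) / y / (y + 2 * Real.log 16) := by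
        rw [Complex.neg_re, Complex.ofReal_re, neg_neg]
        field_simp
        ring
      rw [e1, abs_div, abs_of_pos l3]
      refine div_le_div_of_nonneg_right ?_ l3.le
      rw [abs_div, abs_of_pos (by linarith : 0 < y), div_le_iff₀ (by linarith), abs_mul,
        abs_of_nonneg hL]
      have e2 : |2 * d - y| ≤ y := by
        rw [abs_le]
        constructor <;> linarith
      calc Real.log 16 * |2 * d - y| ≤ Real.log 16 * y := mul_le_mul_of_nonneg_left e2 hL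
        _ ≤ 2 * Real.log 16 * y := by nlinarith
  · have hx := H863.LX_eul_ne (C := R.Cm) (m := m) p k l (rkF R h) (fun h => hkl h.symm)
      (by linarith [H.y1 l])
    refine ⟨?_, ?_⟩
    · rw [TC_apply, show (W R m).eul p l = (wreg R.n m).eul p l from rfl, hx]
      simp
    · rw [SC_apply, show (W R m).eul p l = (wreg R.n m).eul p l from rfl, hx, if_neg hkl,
        if_neg hkl]
      simp

include H in
theorem eul_le (l : Fin 3) : |UNpD m U h ξ p ((W R m).eul p l)| ≤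
    (1 + 2 * Real.log 16) * (1 + 3 * U.A) * (U.D.A0 7 * sz (xeF ξ) (btF ξ)) /
      (bP R m p).1 l := by
  obtain ⟨⟨a0, aX⟩, ⟨a1, aY⟩⟩ := norms H h (TX m h p) ((bP R m p).2 k - TX m h p)
  have hL := log16_nonneg
  obtain ⟨t1, t2⟩ := eul_vals H h l
  exact UNK_y H.big H.al a0 a1 aX aY (SX_nonneg m h H.inr H.ul) (SX_le m h H.inr H.ul)
    (xeF ξ) (btF ξ) (by positivity) (H863.bC_eul R m p l) t1 t2

include H in
theorem eul0_le (hξ : ∀ k, bt ξ k = 0) (l : Fin 3) : |UNpD m U h ξ p ((W R m).eul p l)| ≤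
    (1 + 2 * Real.log 16) * (A2 U.D + 8) * (1 + 8 * U.A) * wa (xeF ξ) (bP R m p) *
      (μ / (bP R m p).1 l) := by
  obtain ⟨⟨a0, aX⟩, ⟨a1, aY⟩⟩ := norms H h (TX m h p) ((bP R m p).2 k - TX m h p)
  have hL := log16_nonneg
  obtain ⟨t1, t2⟩ := eul_vals H h l
  have hb : btF ξ = 0 := funext hξ
  unfold UNpD
  rw [hb]
  exact UNK_y_alpha H.big a0 a1 aX aY (SX_nonneg m h H.inr H.ul) (SX_le m h H.inr H.ul)
    (xeF ξ) (by positivity) (H863.bC_eul R m p l) t1 t2

theorem SC_TC_le (h : R.pl j = Sum.inl k) (d : (W R m).Dir R.Cm) :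
    |SC m h ((W R m).vec d)| + |TC m h ((W R m).vec d)| ≤ 2 := by
  rw [SC_apply, TC_apply, abs_neg]
  refine (abs_re_add_abs_im_le _).trans ?_
  have := (W R m).norm_lS_vec_le (C := R.Cm) (wreg.bef R.n k (rkF R h)) d
  unfold wreg.LX
  linarith

end at_point

theorem A0_nonneg (D : KapData (Fin 3)) : 0 ≤ D.A0 7 := by
  have h1 := D.κ_one
  have h2 : (0 : ℝ) ≤ nn (Fin 3) := nn_nonneg
  unfold KapData.A0 KapData.W0 KapData.B0
  positivity

theorem abs_btF_le (ξ : Fin 6 → ℝ) (k : Fin 3) : |btF ξ k| ≤ 3 * ‖ξ‖ := by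
  have h1 : |btF ξ k| ≤ ‖btF ξ‖ := norm_le_pi_norm (btF ξ) k
  have h2 : ‖btF ξ‖ ≤ sz (xeF ξ) (btF ξ) := le_add_of_nonneg_left (norm_nonneg _)
  exact h1.trans (h2.trans (H680.sz_le ξ))

theorem neckb1 (U : UData) : ∃ K N₀ : ℝ, 1 ≤ N₀ ∧ ∀ R m S, FarOk R S → ∀ p, Adm R m S N₀ p →
    ∀ j, Neck R S j → ∀ ξ, IsCl ξ → ∀ d : (W R m).Dir R.Cm, (∀ k, d ≠ .y k) →
      |lgU U R m S j ξ p ((W R m).vec d)| ≤ K * ‖ξ‖ := by
  obtain ⟨N₀, hN, HN⟩ := exists_nat U
  have hA := U.A_nonneg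
  have hA0 := A0_nonneg U.D
  have hL := log16_nonneg
  set a := U.D.A0 7
  set e2 := 17 * (1 + 2 * Real.log 16)
  have he2 : 0 ≤ e2 := by positivity
  refine ⟨6 * (1 + a * (2 + 2 * U.A)) + (2 + U.A * (2 + e2)) * (3 * (1 + a)), N₀, hN, ?_⟩
  intro R m S hS p hp j hj ξ hξ d hd
  obtain ⟨μ, H⟩ := HN R m S p hp
  obtain ⟨k, h⟩ := hj
  rw [lgU_eq H h ξ S]
  have hsz := H680.sz_le ξ
  have hs0 := sz_nonneg (xeF ξ) (btF ξ)
  have hx := norm_nonneg ξ
  have hbk := abs_btF_le ξ k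
  have hgap : ∀ v, bC R m v = 0 → |SC m h v| + |TC m h v| ≤ 2 → |UNpD m U h ξ p v| ≤
      (6 * (1 + a * (2 + 2 * U.A)) + (2 + U.A * (2 + e2)) * (3 * (1 + a))) * ‖ξ‖ := by
    intro v hv hv2
    refine (gap_le H h ξ hv).trans ?_
    have t1 : Real.exp (-(SX m h p)) ≤ 1 := by
      rw [Real.exp_le_one_iff]; linarith [SX_nonneg m h H.inr H.ul]
    have t2 : Real.exp (-((bP R m p).1 k - SX m h p)) ≤ 1 := by
      rw [Real.exp_le_one_iff]; linarith [SX_le m h H.inr H.ul]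
    have t3 : 2 / (bP R m p).1 k ≤ 2 := by
      have := H.y1 k
      have h1 := (len_pos H k).1
      exact div_le_self (by norm_num) (by linarith)
    have t4 : 2 / (bP R m p).1 k + U.A * (Real.exp (-(SX m h p)) +
        Real.exp (-((bP R m p).1 k - SX m h p))) ≤ 2 + 2 * U.A := by
      have := mul_le_mul_of_nonneg_left (add_le_add t1 t2) hA
      linarith
    have hlen := (len_pos H k).2.2
    calc _ ≤ (3 * ‖ξ‖ + a * (3 * ‖ξ‖) * (2 + 2 * U.A)) * 2 := by
          refine mul_le_mul (add_le_add hbk (mul_le_mul (mul_le_mul_of_nonneg_left hsz hA0) t4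
            (by positivity) (by positivity))) hv2 (by positivity) (by positivity)
      _ = 6 * (1 + a * (2 + 2 * U.A)) * ‖ξ‖ := by ring
      _ ≤ _ := by
          refine mul_le_mul_of_nonneg_right ?_ hx
          have : 0 ≤ (2 + U.A * (2 + e2)) * (3 * (1 + a)) := by positivity
          linarith
  rcases d with f | f | l | l | c | c
  · exact hgap _ (bC_u f) (SC_TC_le h _)
  · exact hgap _ (bC_ph f) (SC_TC_le h _)
  · exact absurd rfl (hd l)
  · refine (al_le H h ξ l).trans ?_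
    have hlen := (len_pos H l).1
    have hy := H.y1 l
    have t1 : a * sz (xeF ξ) (btF ξ) / (bP R m p).1 l ≤ a * (3 * ‖ξ‖) :=
      (div_le_self (by positivity) (by linarith)).trans (mul_le_mul_of_nonneg_left hsz hA0)
    calc _ ≤ (2 + U.A * (2 + e2)) * (3 * ‖ξ‖ + a * (3 * ‖ξ‖)) :=
          mul_le_mul_of_nonneg_left (add_le_add (abs_btF_le ξ l) t1) (by positivity)
      _ = (2 + U.A * (2 + e2)) * (3 * (1 + a)) * ‖ξ‖ := by ring
      _ ≤ _ := by
          refine mul_le_mul_of_nonneg_right ?_ hx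
          have : 0 ≤ 6 * (1 + a * (2 + 2 * U.A)) := by positivity
          linarith
  · exact hgap _ rfl (SC_TC_le h _)
  · exact hgap _ rfl (SC_TC_le h _)

theorem neckb2 (U : UData) : ∃ K N₀ : ℝ, 1 ≤ N₀ ∧ ∀ R m S, FarOk R S → ∀ p, Adm R m S N₀ p →
    ∀ j, Neck R S j → ∀ ξ, IsCl ξ → ∀ f : (W R m).Fr, ∀ d : (W R m).Dir R.Cm,
    (d = .u f ∨ d = .ph f) →
      |lgU U R m S j ξ p ((W R m).vec d)| ≤ K * (|bt ξ ((W R m).nk f.1)| +
        ‖ξ‖ * (1 / p.2.2.1 ((W R m).nk f.1) + Real.exp (-p.1 f))) := by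
  obtain ⟨N₀, hN, HN⟩ := exists_nat U
  have hA := U.A_nonneg
  have hA0 := A0_nonneg U.D
  set a := U.D.A0 7
  refine ⟨2 + 12 * a * (1 + U.A), N₀, hN, ?_⟩
  intro R m S hS p hp j hj ξ hξ f d hd
  obtain ⟨μ, H⟩ := HN R m S p hp
  obtain ⟨k, h⟩ := hj
  rw [lgU_eq H h ξ S]
  have hsz := H680.sz_le ξ
  have hx := norm_nonneg ξ
  have hv : bC R m ((W R m).vec d) = 0 := H863.bC_gap R m hd
  have hg := gap_le H h ξ hv
  rcases H863.gap_split H.inr H.ul k (rkF R h) f hd with h0 | ⟨hk, u1, u2⟩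
  · have e1 : SC m h ((W R m).vec d) = 0 := by
      rw [SC_apply, show (W R m).vec d = (wreg R.n m).vec d from rfl, h0]; simp
    have e2 : TC m h ((W R m).vec d) = 0 := by
      rw [TC_apply, show (W R m).vec d = (wreg R.n m).vec d from rfl, h0]; simp
    rw [e1, e2, abs_zero, add_zero, mul_zero] at hg
    refine hg.trans ?_
    have hy := H.y1 ((W R m).nk f.1)
    positivity
  · have hk' : (W R m).nk f.1 = k := hk
    rw [hk']
    have hy := H.y1 k
    obtain ⟨l1, -, l3⟩ := len_pos H k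
    set E := Real.exp (-p.1 f)
    have hE : 0 < E := Real.exp_pos _
    have t1 : Real.exp (-(SX m h p)) ≤ E := by
      rw [Real.exp_le_exp, SX_eq_dep]
      have := log16_nonneg
      have u1' : p.1 f ≤ wreg.dep m p k (rkF R h) := u1
      linarith
    have t2 : Real.exp (-((bP R m p).1 k - SX m h p)) ≤ E := by
      rw [Real.exp_le_exp, len_sub_SX]
      have := log16_nonneg
      have u2' : p.1 f ≤ p.2.2.1 k - wreg.dep m p k (rkF R h) := u2
      linarith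
    have t3 : 2 / (bP R m p).1 k ≤ 2 * (1 / p.2.2.1 k) := by
      rw [div_eq_mul_one_div]
      exact mul_le_mul_of_nonneg_left (one_div_le_one_div_of_le (by linarith) l1)
        (by norm_num)
    have t4 : 2 / (bP R m p).1 k + U.A * (Real.exp (-(SX m h p)) +
        Real.exp (-((bP R m p).1 k - SX m h p))) ≤ 2 * (1 / p.2.2.1 k) + U.A * (E + E) :=
      add_le_add t3 (mul_le_mul_of_nonneg_left (add_le_add t1 t2) hA)
    have hq : 0 ≤ 1 / p.2.2.1 k := by positivity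
    refine hg.trans ?_
    calc _ ≤ (|btF ξ k| + a * (3 * ‖ξ‖) * (2 * (1 / p.2.2.1 k) + U.A * (E + E))) * 2 := by
          refine mul_le_mul (add_le_add le_rfl (mul_le_mul (mul_le_mul_of_nonneg_left hsz hA0)
            t4 (by positivity) (by positivity))) (SC_TC_le h d) (by positivity) (by positivity)
      _ = 2 * |bt ξ k| + 12 * a * ‖ξ‖ * (1 / p.2.2.1 k + U.A * E) := by
          rw [show btF ξ k = bt ξ k from rfl]
          ring
      _ ≤ _ := by
          have z1 : 0 ≤ |bt ξ k| := abs_nonneg _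
          have z2 : 1 / p.2.2.1 k + U.A * E ≤ (1 + U.A) * (1 / p.2.2.1 k + E) := by
            have q1 : 0 ≤ U.A * (1 / p.2.2.1 k) := by positivity
            nlinarith
          have z3 : 12 * a * ‖ξ‖ * (1 / p.2.2.1 k + U.A * E) ≤
              12 * a * ‖ξ‖ * ((1 + U.A) * (1 / p.2.2.1 k + E)) :=
            mul_le_mul_of_nonneg_left z2 (by positivity)
          have z4 : 0 ≤ 12 * a * (1 + U.A) * |bt ξ k| := by positivity
          have z5 : 0 ≤ 2 * (‖ξ‖ * (1 / p.2.2.1 k + E)) := by positivity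
          calc _ ≤ 2 * |bt ξ k| + 12 * a * ‖ξ‖ * ((1 + U.A) * (1 / p.2.2.1 k + E)) := by
                linarith
            _ ≤ 2 * |bt ξ k| + 12 * a * ‖ξ‖ * ((1 + U.A) * (1 / p.2.2.1 k + E)) +
                12 * a * (1 + U.A) * |bt ξ k| + 2 * (‖ξ‖ * (1 / p.2.2.1 k + E)) := by linarith
            _ = _ := by ring

theorem neckb4 (U : UData) : ∃ K N₀ : ℝ, 1 ≤ N₀ ∧ ∀ R m S, FarOk R S → ∀ p, Adm R m S N₀ p →
    ∀ j, Neck R S j → ∀ ξ, IsCl ξ → ∀ k, |lgU U R m S j ξ p ((W R m).vec (.al k))| ≤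
      K * (|bt ξ k| + ‖ξ‖ / p.2.2.1 k) := by
  obtain ⟨N₀, hN, HN⟩ := exists_nat U
  have hA := U.A_nonneg
  have hA0 := A0_nonneg U.D
  have hL := log16_nonneg
  set a := U.D.A0 7
  set e2 := 17 * (1 + 2 * Real.log 16)
  have he2 : 0 ≤ e2 := by positivity
  refine ⟨(2 + U.A * (2 + e2)) * (1 + 3 * a), N₀, hN, ?_⟩
  intro R m S hS p hp j hj ξ hξ l
  obtain ⟨μ, H⟩ := HN R m S p hp
  obtain ⟨k, h⟩ := hj
  rw [lgU_eq H h ξ S]
  have hsz := H680.sz_le ξ
  have hx := norm_nonneg ξ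
  have hy := H.y1 l
  obtain ⟨l1, -, l3⟩ := len_pos H l
  refine (al_le H h ξ l).trans ?_
  have t1 : a * sz (xeF ξ) (btF ξ) / (bP R m p).1 l ≤ 3 * a * (‖ξ‖ / p.2.2.1 l) := by
    calc _ ≤ a * (3 * ‖ξ‖) / p.2.2.1 l :=
          div_le_div₀ (by positivity) (mul_le_mul_of_nonneg_left hsz hA0) (by linarith) l1
      _ = _ := by ring
  have z1 : 0 ≤ |bt ξ l| := abs_nonneg _
  have z2 : 0 ≤ ‖ξ‖ / p.2.2.1 l := by positivity
  rw [mul_assoc]
  refine mul_le_mul_of_nonneg_left ?_ (by positivity)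
  have z3 : 0 ≤ 3 * a * |bt ξ l| := by positivity
  calc _ ≤ |bt ξ l| + 3 * a * (‖ξ‖ / p.2.2.1 l) := add_le_add le_rfl t1
    _ ≤ _ := by nlinarith

theorem neckb5 (U : UData) : ∃ K N₀ : ℝ, 1 ≤ N₀ ∧ ∀ R m S, FarOk R S → ∀ p, Adm R m S N₀ p →
    ∀ j, Neck R S j → ∀ ξ, IsCl ξ → ∀ k, |lgU U R m S j ξ p ((W R m).eul p k)| ≤
      K * (‖ξ‖ / p.2.2.1 k) := by
  obtain ⟨N₀, hN, HN⟩ := exists_nat U
  have hA := U.A_nonneg
  have hA0 := A0_nonneg U.D
  have hL := log16_nonneg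
  set a := U.D.A0 7
  refine ⟨(1 + 2 * Real.log 16) * (1 + 3 * U.A) * (3 * a), N₀, hN, ?_⟩
  intro R m S hS p hp j hj ξ hξ l
  obtain ⟨μ, H⟩ := HN R m S p hp
  obtain ⟨k, h⟩ := hj
  rw [lgU_eq H h ξ S]
  have hsz := H680.sz_le ξ
  have hx := norm_nonneg ξ
  have hy := H.y1 l
  obtain ⟨l1, -, l3⟩ := len_pos H l
  refine (eul_le H h ξ l).trans ?_
  calc _ ≤ (1 + 2 * Real.log 16) * (1 + 3 * U.A) * (a * (3 * ‖ξ‖)) / p.2.2.1 l := by
        refine div_le_div₀ (by positivity) ?_ (by linarith) l1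
        exact mul_le_mul_of_nonneg_left (mul_le_mul_of_nonneg_left hsz hA0) (by positivity)
    _ = _ := by ring

theorem neckb6 (U : UData) : ∃ K N₀ : ℝ, 1 ≤ N₀ ∧ ∀ R m S, FarOk R S → ∀ p, Adm R m S N₀ p →
    ∀ j, Neck R S j → ∀ ξ, IsCl ξ → (∀ k, bt ξ k = 0) →
    (∀ d : (W R m).Dir R.Cm, (∀ k, d ≠ .y k) →
      |lgU U R m S j ξ p ((W R m).vec d)| ≤ K * H562.ww ξ p.2.2.1) ∧
    ∀ k, |lgU U R m S j ξ p ((W R m).eul p k)| ≤
      K * (H562.ww ξ p.2.2.1 * (mn p.2.2.1 / p.2.2.1 k)) := by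
  obtain ⟨N₀, hN, HN⟩ := exists_nat U
  have hA := U.A_nonneg
  have hA2 := one_le_A2 U.D
  have hL := log16_nonneg
  set b := A2 U.D
  set K1 := 2 * (8 + 32 * U.A) with hK1
  set K2 := 2 * (b + 16 * U.A + 2 * U.A * b) with hK2
  set K3 := (1 + 2 * Real.log 16) * (b + 8) * (1 + 8 * U.A) * (1 + 2 * Real.log 16) with hK3
  have k1 : 0 ≤ K1 := by positivity
  have k2 : 0 ≤ K2 := by positivity
  have k3 : 0 ≤ K3 := by positivity
  refine ⟨K1 + K2 + K3, N₀, hN, ?_⟩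
  intro R m S hS p hp j hj ξ hξ hb
  obtain ⟨μ, H⟩ := HN R m S p hp
  obtain ⟨k, h⟩ := hj
  rw [lgU_eq H h ξ S]
  have hy0 : ∀ k, 0 < p.2.2.1 k := fun k => by linarith [H.y1 k]
  have hww := ww_nonneg ξ hy0
  have hwa := wa_nonneg H.big (xeF ξ)
  have hle := H680.wa_le_ww ξ hy0
  have hgap : ∀ v, bC R m v = 0 → |SC m h v| + |TC m h v| ≤ 2 → |UNpD m U h ξ p v| ≤
      (K1 + K2 + K3) * H562.ww ξ p.2.2.1 := by
    intro v hv hv2
    refine (gap0_le H h ξ hb hv).trans ?_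
    calc _ ≤ (8 + 32 * U.A) * H562.ww ξ p.2.2.1 * 2 := by
          refine mul_le_mul (mul_le_mul_of_nonneg_left hle (by positivity)) hv2
            (by positivity) (by positivity)
      _ = K1 * H562.ww ξ p.2.2.1 := by rw [hK1]; ring
      _ ≤ _ := mul_le_mul_of_nonneg_right (by linarith) hww
  refine ⟨fun d hd => ?_, fun l => ?_⟩
  · rcases d with f | f | l | l | c | c
    · exact hgap _ (bC_u f) (SC_TC_le h _)
    · exact hgap _ (bC_ph f) (SC_TC_le h _)
    · exact absurd rfl (hd l)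
    · refine (al0_le H h ξ hb l).trans ?_
      calc _ ≤ K2 * H562.ww ξ p.2.2.1 := mul_le_mul_of_nonneg_left hle k2
        _ ≤ _ := mul_le_mul_of_nonneg_right (by linarith) hww
    · exact hgap _ rfl (SC_TC_le h _)
    · exact hgap _ rfl (SC_TC_le h _)
  · refine (eul0_le H h ξ hb l).trans ?_
    obtain ⟨l1, -, l3⟩ := len_pos H l
    have hmn := H.mn
    have hmn0 := mn_pos hy0
    have hq : μ / (bP R m p).1 l ≤ (1 + 2 * Real.log 16) * (mn p.2.2.1 / p.2.2.1 l) := by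
      calc _ ≤ (1 + 2 * Real.log 16) * mn p.2.2.1 / p.2.2.1 l :=
            div_le_div₀ (by positivity) hmn (hy0 l) l1
        _ = _ := by ring
    have hμ := H.big.pos
    have hyl := hy0 l
    calc _ ≤ (1 + 2 * Real.log 16) * (b + 8) * (1 + 8 * U.A) * H562.ww ξ p.2.2.1 *
          ((1 + 2 * Real.log 16) * (mn p.2.2.1 / p.2.2.1 l)) := by
          refine mul_le_mul (mul_le_mul_of_nonneg_left hle (by positivity)) hq ?_ ?_
          · have : 0 < μ := by linarith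
            positivity
          · positivity
      _ = K3 * (H562.ww ξ p.2.2.1 * (mn p.2.2.1 / p.2.2.1 l)) := by rw [hK3]; ring
      _ ≤ _ := by
          refine mul_le_mul_of_nonneg_right (by linarith) ?_
          positivity

/-- **all fields for the marks of the necks** -/
theorem asyNeck (U : UData) : AsyQ Neck (kap0 U) (lgU U) where
  b1 := neckb1 U
  b2 := neckb2 U
  b4 := neckb4 U
  b5 := neckb5 U
  b6 := neckb6 U
  limN := fun R m S hS B p hp hy j _ k h ξ hξ d hd =>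
    limN_lgU U R m S hS B p hp hy j k h ξ hξ d hd
  limC := by
    intro R m S hS B p hp hy j hj b hb
    obtain ⟨k, h⟩ := hj
    rw [h] at hb
    cases hb
  lim0 := lim0N_lgU U

end Vale.Agent.P273.H132

end
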