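import Vale.Agent.P273.H132.LgU
import Vale.Agent.P273.H545.NeckTheta
import Vale.Agent.P273.H732.EulB

/-!
# P273, crew ASY0: the leg of `lgU` on the necks: polyhedral part and remainder

* `exp_lS_mul_le`: `|∏ τ_g| |L v| ≤ #T ‖dψ v‖` for a sum `L` of logarithms of gaps of `T`;
* `UNp_eq`: the potential `UNp` is 545's `UNK`; `hasFDerivAt_UNp`;
* `UPn`: the polyhedral part of the leg; `UNp_rem`: leg minus polyhedral part.
-/

set_option linter.unusedSectionVars false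

noncomputable section

namespace Vale.Agent.P273.H132

open Set Filter H681 H95 H732 H562 H803 H545 H722
open scoped Topology ContDiff

section Gen

variable {K G : Type} {C : Type} (R : Reg K G)
variable [DecidableEq K] [DecidableEq G] [Fintype G] [Fintype K] [Fintype C] [DecidableEq C]

/-- the product of the gaps of `T` times the derivative of its logarithm -/
theorem exp_lS_mul_le {P : R.Co C} (hp : R.Inr P) (hl : ∀ k, 0 ≤ R.ul P k) (T : Finset G)
    (v : R.Co C) :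
    Real.exp ((R.lS T P).re) * ‖R.lS T v‖ ≤ (T.card : ℝ) * ‖R.dpsi P v‖ := by
  have h1 : ‖R.lS T v‖ ≤ ∑ g ∈ T, ‖R.Z v g‖ := by
    rw [R.lS_apply]
    exact norm_sum_le _ _
  have h2 : ∀ g ∈ T, Real.exp ((R.lS T P).re) * ‖R.Z v g‖ ≤ ‖R.dpsi P v‖ := by
    intro g hg
    have e1 : Real.exp ((R.lS T P).re) ≤ Real.exp (-R.ug P g) := by
      rw [Real.exp_le_exp, R.lS_re, neg_le_neg_iff]
      exact Finset.single_le_sum (f := fun g => R.ug P g) (fun g _ => R.ug_nonneg hp hl g) hg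
    calc Real.exp ((R.lS T P).re) * ‖R.Z v g‖ ≤ Real.exp (-R.ug P g) * ‖R.Z v g‖ :=
          mul_le_mul_of_nonneg_right e1 (norm_nonneg _)
      _ = ‖(R.dpsi P v).1 g‖ := by rw [R.dpsi_apply, norm_mul, R.norm_tau]
      _ ≤ ‖(R.dpsi P v).1‖ := norm_le_pi_norm _ g
      _ ≤ ‖R.dpsi P v‖ := norm_fst_le _
  calc _ ≤ Real.exp ((R.lS T P).re) * ∑ g ∈ T, ‖R.Z v g‖ :=
        mul_le_mul_of_nonneg_left h1 (Real.exp_pos _).le
    _ = ∑ g ∈ T, Real.exp ((R.lS T P).re) * ‖R.Z v g‖ := Finset.mul_sum _ _ _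
    _ ≤ ∑ _g ∈ T, ‖R.dpsi P v‖ := Finset.sum_le_sum h2
    _ = _ := by rw [Finset.sum_const, nsmul_eq_mul]

theorem abs_re_add_abs_im_le (z : ℂ) : |z.re| + |z.im| ≤ 2 * ‖z‖ := by
  have h1 := Complex.abs_re_le_norm z
  have h2 := Complex.abs_im_le_norm z
  linarith

end Gen

section Neck

variable {R : H95.Region} (m : ∀ k, Fin (R.n k + 1)) {j : L} {k : Fin 3}

theorem UNp_eq (U : UData) (ξ : Fin 6 → ℝ) (h : R.pl j = Sum.inl k) :
    UNp m U ξ h = UNK U.D (U.h k) (xeF ξ) (btF ξ) k (bP R m) (SX m h) (TX m h) := rfl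

/-- number of gaps of the region -/
def nG (R : H95.Region) : ℝ := (Fintype.card (Σ k, Fin (R.n k + 1)) : ℝ)

theorem nG_nonneg (R : H95.Region) : 0 ≤ nG R := Nat.cast_nonneg _

theorem card_le_nG (T : Finset (Σ k, Fin (R.n k + 1))) : (T.card : ℝ) ≤ nG R :=
  Nat.cast_le.2 (Finset.card_le_univ T)

/-- depth and length -/
theorem SX_eq_dep (h : R.pl j = Sum.inl k) (P : Co R m) :
    SX m h P = Real.log 16 + wreg.dep m P k (rkF R h) := by
  unfold SX
  rw [wreg.LX_eq]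
  simp

theorem len_sub_SX (h : R.pl j = Sum.inl k) (P : Co R m) :
    (bP R m P).1 k - SX m h P = Real.log 16 + (P.2.2.1 k - wreg.dep m P k (rkF R h)) := by
  rw [SX_eq_dep]
  show P.2.2.1 k + 2 * Real.log 16 - (Real.log 16 + wreg.dep m P k (rkF R h)) = _
  ring

theorem re_LX (h : R.pl j = Sum.inl k) (P : Co R m) :
    (wreg.LX R.Cm R.n m k (rkF R h) P).re = -(wreg.dep m P k (rkF R h)) := by
  rw [wreg.LX_eq]; simp

theorem re_LY (h : R.pl j = Sum.inl k) (P : Co R m) :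
    (wreg.LY R.Cm R.n m k (rkF R h) P).re = -(P.2.2.1 k - wreg.dep m P k (rkF R h)) := by
  rw [wreg.LY_eq]; simp

theorem log16_nonneg : (0 : ℝ) ≤ Real.log 16 := Real.log_nonneg (by norm_num)

theorem SX_nonneg (h : R.pl j = Sum.inl k) {P : Co R m} (hp : (W R m).Inr P)
    (hl : ∀ k, 0 ≤ (W R m).ul P k) : 0 ≤ SX m h P := by
  rw [SX_eq_dep]
  have := wreg.dep_nonneg m hp hl k (rkF R h)
  have := log16_nonneg
  linarith

theorem SX_le (h : R.pl j = Sum.inl k) {P : Co R m} (hp : (W R m).Inr P)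
    (hl : ∀ k, 0 ≤ (W R m).ul P k) : SX m h P ≤ (bP R m P).1 k := by
  have h1 := len_sub_SX m h P
  have h2 := wreg.dep_le m hp hl k (rkF R h)
  have := log16_nonneg
  linarith

theorem exp_SX_le (h : R.pl j = Sum.inl k) (P : Co R m) :
    Real.exp (-(SX m h P)) ≤ Real.exp ((wreg.LX R.Cm R.n m k (rkF R h) P).re) := by
  rw [Real.exp_le_exp, re_LX, SX_eq_dep]
  have := log16_nonneg
  linarith

theorem exp_SY_le (h : R.pl j = Sum.inl k) (P : Co R m) :
    Real.exp (-((bP R m P).1 k - SX m h P)) ≤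
      Real.exp ((wreg.LY R.Cm R.n m k (rkF R h) P).re) := by
  rw [Real.exp_le_exp, re_LY, len_sub_SX]
  have := log16_nonneg
  linarith

/-- the derivatives in the second chart -/
theorem LY_vec (h : R.pl j = Sum.inl k) (v : Co R m) :
    (bC R m v).1 k - SC m h v = -(wreg.LY R.Cm R.n m k (rkF R h) v).re ∧
      (bC R m v).2 k - TC m h v = (wreg.LY R.Cm R.n m k (rkF R h) v).im := by
  have h1 := wreg.LX_add_LY m v k (rkF R h)
  have h2 := congrArg Complex.re h1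
  have h3 := congrArg Complex.im h1
  simp only [Complex.add_re, Complex.add_im, Complex.neg_re, Complex.neg_im, Complex.ofReal_re,
    Complex.ofReal_im, Complex.mul_re, Complex.mul_im, Complex.I_re, Complex.I_im, mul_zero,
    mul_one, sub_zero, neg_zero, zero_add, add_zero] at h2 h3
  constructor
  · rw [SC_apply]
    show v.2.2.1 k - _ = _
    linarith
  · rw [TC_apply]
    show v.2.2.2.1 k - _ = _
    linarith

/-- the moving part of the leg -/
theorem mov_le (h : R.pl j = Sum.inl k) {P : Co R m} (hp : (W R m).Inr P)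
    (hl : ∀ k, 0 ≤ (W R m).ul P k) (v : Co R m) :
    Real.exp (-(SX m h P)) * (|SC m h v| + |TC m h v|) +
      Real.exp (-((bP R m P).1 k - SX m h P)) * (|(bC R m v).1 k - SC m h v| +
        |(bC R m v).2 k - TC m h v|) ≤ 4 * nG R * ‖(W R m).dpsi P v‖ := by
  obtain ⟨e1, e2⟩ := LY_vec m h v
  rw [e1, e2, abs_neg, SC_apply, TC_apply, abs_neg]
  have a1 := exp_lS_mul_le (W R m) hp hl (wreg.bef R.n k (rkF R h)) v
  have a2 := exp_lS_mul_le (W R m) hp hl (wreg.aft R.n k (rkF R h)) v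
  have c1 := card_le_nG (wreg.bef R.n k (rkF R h))
  have c2 := card_le_nG (wreg.aft R.n k (rkF R h))
  have n0 := norm_nonneg ((W R m).dpsi P v)
  have b1 : Real.exp (-(SX m h P)) * (|(wreg.LX R.Cm R.n m k (rkF R h) v).re| +
      |(wreg.LX R.Cm R.n m k (rkF R h) v).im|) ≤ 2 * (nG R * ‖(W R m).dpsi P v‖) := by
    calc _ ≤ Real.exp ((wreg.LX R.Cm R.n m k (rkF R h) P).re) *
          (2 * ‖wreg.LX R.Cm R.n m k (rkF R h) v‖) :=
          mul_le_mul (exp_SX_le m h P) (abs_re_add_abs_im_le _) (by positivity)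
            (Real.exp_pos _).le
      _ = 2 * (Real.exp ((wreg.LX R.Cm R.n m k (rkF R h) P).re) *
          ‖wreg.LX R.Cm R.n m k (rkF R h) v‖) := by ring
      _ ≤ 2 * (nG R * ‖(W R m).dpsi P v‖) := by
          refine mul_le_mul_of_nonneg_left (a1.trans ?_) (by norm_num)
          exact mul_le_mul_of_nonneg_right c1 n0
  have b2 : Real.exp (-((bP R m P).1 k - SX m h P)) *
      (|(wreg.LY R.Cm R.n m k (rkF R h) v).re| + |(wreg.LY R.Cm R.n m k (rkF R h) v).im|) ≤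
      2 * (nG R * ‖(W R m).dpsi P v‖) := by
    calc _ ≤ Real.exp ((wreg.LY R.Cm R.n m k (rkF R h) P).re) *
          (2 * ‖wreg.LY R.Cm R.n m k (rkF R h) v‖) :=
          mul_le_mul (exp_SY_le m h P) (abs_re_add_abs_im_le _) (by positivity)
            (Real.exp_pos _).le
      _ = 2 * (Real.exp ((wreg.LY R.Cm R.n m k (rkF R h) P).re) *
          ‖wreg.LY R.Cm R.n m k (rkF R h) v‖) := by ring
      _ ≤ 2 * (nG R * ‖(W R m).dpsi P v‖) := by
          refine mul_le_mul_of_nonneg_left (a2.trans ?_) (by norm_num)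
          exact mul_le_mul_of_nonneg_right c2 n0
  linarith

/-- the polyhedral part of the leg -/
def UPn (U : UData) (ξ : Fin 6 → ℝ) (h : R.pl j = Sum.inl k) (P : Co R m) : Co R m →L[ℝ] ℝ :=
  UPK U.D (xeF ξ) (btF ξ) k (bP R m P) (SX m h P) (bC R m) (SC m h) (TC m h)

theorem UPn_apply (U : UData) (ξ : Fin 6 → ℝ) (h : R.pl j = Sum.inl k) (P v : Co R m) :
    UPn m U ξ h P v =
      (1 - 2 * SX m h P / (bP R m P).1 k) *
        fderiv ℝ (fun q => U.D.wf (xeF ξ) (btF ξ) q k) (bP R m P) (bC R m v) -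
      2 * U.D.wf (xeF ξ) (btF ξ) (bP R m P) k / (bP R m P).1 k *
        (SC m h v - SX m h P / (bP R m P).1 k * (bC R m v).1 k) -
      btF ξ k / Real.pi * (TC m h v - 1 / 2 * (bC R m v).2 k) := rfl

section Der

variable (U : UData) {P : Co R m} {μ : ℝ} (hbig : U.D.Big μ (bP R m P))
  (hρ : ‖ep (bP R m P)‖ < U.ρ) (hp : (W R m).Inr P) (hl : ∀ k, 0 ≤ (W R m).ul P k)
  (h : R.pl j = Sum.inl k)

include hp hl in
theorem norm_cX_SX_le (Θ0 : ℝ) : ‖cX (SX m h P) Θ0‖ ≤ 1 := by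
  rw [norm_cX, Real.exp_le_one_iff]
  have := SX_nonneg m h hp hl
  linarith

include hp hl in
theorem norm_cX_SY_le (Θ0 : ℝ) : ‖cX ((bP R m P).1 k - SX m h P) Θ0‖ ≤ 1 := by
  rw [norm_cX, Real.exp_le_one_iff]
  have := SX_le m h hp hl
  linarith

/-- the derivative of `UNp` in the notation of 545 -/
def UNpD (ξ : Fin 6 → ℝ) (P : Co R m) : Co R m →L[ℝ] ℝ :=
  UNKD U.D (U.h k (ep (bP R m P), cX (SX m h P) (TX m h P)))
    (U.h k (ep (bP R m P), cX ((bP R m P).1 k - SX m h P) ((bP R m P).2 k - TX m h P)))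
    (fderiv ℝ (U.h k) (ep (bP R m P), cX (SX m h P) (TX m h P)))
    (fderiv ℝ (U.h k) (ep (bP R m P), cX ((bP R m P).1 k - SX m h P) ((bP R m P).2 k - TX m h P)))
    (xeF ξ) (btF ξ) k (bP R m P) (SX m h P) (TX m h P) (bC R m) (SC m h) (TC m h)

include hbig hρ hp hl in
theorem hasFDerivAt_UNp (ξ : Fin 6 → ℝ) :
    HasFDerivAt (UNp m U ξ h) (UNpD m U h ξ P) P := by
  rw [UNp_eq]
  exact hasFDerivAt_UNK hbig (hasFDerivAt_bP R m P)
    (U.h_diff k _ _ hρ (norm_cX_SX_le m hp hl h _)).hasFDerivAt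
    (U.h_diff k _ _ hρ (norm_cX_SY_le m hp hl h _)).hasFDerivAt
    (hasFDerivAt_SX m h P) (hasFDerivAt_TX m h P) (xeF ξ) (btF ξ)

include hbig hρ hp hl in
theorem fderiv_UNp (ξ : Fin 6 → ℝ) : fderiv ℝ (UNp m U ξ h) P = UNpD m U h ξ P :=
  (hasFDerivAt_UNp m U hbig hρ hp hl h ξ).fderiv

theorem UData.A_nonneg (U : UData) : 0 ≤ U.A :=
  (norm_nonneg _).trans (U.h_le 0 0 0 (by rw [norm_zero]; exact U.ρ_pos) (by simp))

include hbig hρ hp hl in
/-- **leg minus polyhedral part**, every direction -/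
theorem UNp_rem (ξ : Fin 6 → ℝ) (v : Co R m) :
    |fderiv ℝ (UNp m U ξ h) P v - UPn m U ξ h P v| ≤
      2 * U.A * ‖cc U.D (xeF ξ) (btF ξ) (bP R m P)‖ * (4 * nG R * ‖(W R m).dpsi P v‖) +
      2 * U.A * (‖cc U.D (xeF ξ) (btF ξ) (bP R m P)‖ * ‖dep (bP R m P) (bC R m v)‖ +
        ‖ccD U.D (xeF ξ) (btF ξ) (bP R m P) (bC R m v)‖) := by
  rw [fderiv_UNp m U hbig hρ hp hl h ξ]
  have b1 := norm_cX_SX_le m hp hl h (TX m h P)
  have b2 := norm_cX_SY_le m hp hl h ((bP R m P).2 k - TX m h P)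
  have h1 := UNK_base_exp (D := U.D) (ξ := xeF ξ) (β := btF ξ) (k := k) (p := bP R m P)
    (S0 := SX m h P) (Θ0 := TX m h P) (B := bC R m) (S' := SC m h) (Θ' := TC m h)
    (U.h_le k _ _ hρ b1) (U.h_le k _ _ hρ b2) (U.h'_le k _ _ hρ b1) (U.h'_le k _ _ hρ b2)
    (SX_nonneg m h hp hl) (SX_le m h hp hl) v
  have h2 := mov_le m h hp hl v
  have hA := U.A_nonneg
  refine h1.trans (add_le_add ?_ le_rfl)
  exact mul_le_mul_of_nonneg_left h2 (by positivity)

end Der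

end Neck

end Vale.Agent.P273.H132

end
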